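import Vale.Agent.P153.R2.R1.Uniq
import Vale.Agent.P153.R2.R1.Mob
import Vale.Agent.P153.R2.DET.Defs

/-!
# Two uniformizations of a domain with the same image of infinity differ by an affine map
-/

set_option autoImplicit false

open Set Topology Metric Filter Bornology
open scoped ComplexConjugate

namespace Vale.Agent.P167.H264

open Vale.Agent.P153.R2.R1
open Vale.Agent.P153.R2.DET (Uni HC)

theorem imb_I_zero : imb 1 Complex.I 0 = Complex.I := by
  simp [imb]

theorem imb_image : imb 1 Complex.I '' ball 0 1 = {z | 0 < z.im} := by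
  have hI : (0 : ℝ) < (Complex.I).im := by rw [Complex.I_im]; exact zero_lt_one
  apply Subset.antisymm
  · rintro _ ⟨w, hw, rfl⟩
    rw [mem_ball_zero_iff] at hw
    exact imb_im_pos (by simp) hI hw
  · intro z hz
    have hz' : 0 < z.im := hz
    exact ⟨mb 1 Complex.I z, mem_ball_zero_iff.2 (norm_mb_lt (by simp) hI hz'),
      imb_mb (by simp) hI hz'.le⟩

theorem imb_injOn : InjOn (imb 1 Complex.I) (ball 0 1) := by
  have hI : (0 : ℝ) < (Complex.I).im := by rw [Complex.I_im]; exact zero_lt_one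
  intro u hu v hv h
  have hne : ∀ w : ℂ, w ∈ ball (0 : ℂ) 1 → w ≠ 1 := by
    rintro w hw rfl
    simp at hw
  have h1 := (mb_imb (β := 1) (c := Complex.I) (by simp) hI (hne u hu)).2
  have h2 := (mb_imb (β := 1) (c := Complex.I) (by simp) hI (hne v hv)).2
  rw [← h1, ← h2, h]

theorem imb_diff : DifferentiableOn ℂ (imb 1 Complex.I) (ball 0 1) := by
  intro w hw
  refine (imb_differentiableAt ?_).differentiableWithinAt
  rintro rfl
  simp at hw

theorem conf_of {ψ : ℂ → ℂ} (hd : DifferentiableOn ℂ ψ {z | 0 < z.im})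
    (hi : InjOn ψ {z | 0 < z.im}) :
    Conf (fun u => ψ (imb 1 Complex.I u)) (ψ '' {z | 0 < z.im}) := by
  have hm : MapsTo (imb 1 Complex.I) (ball 0 1) {z | 0 < z.im} := by
    rw [← imb_image]
    exact mapsTo_image _ _
  refine ⟨hd.comp imb_diff hm, hi.comp imb_injOn hm, ?_⟩
  rw [← imb_image, image_image]

/-- **Uniqueness of the uniformization up to affine maps.** -/
theorem aut {ψ ψ' : ℂ → ℂ} {b : ℂ} (h : Uni ψ b) (h' : Uni ψ' b)
    (hd : DifferentiableOn ℂ ψ {z | 0 < z.im}) (hd' : DifferentiableOn ℂ ψ' {z | 0 < z.im})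
    (him : ψ '' {z | 0 < z.im} = ψ' '' {z | 0 < z.im}) :
    ∃ s t : ℝ, 0 < s ∧ ∀ z ∈ HC, ψ z = ψ' (s * z + t) := by
  have hI : (0 : ℝ) < (Complex.I).im := by rw [Complex.I_im]; exact zero_lt_one
  have hsub : {z : ℂ | 0 < z.im} ⊆ HC := fun z hz => le_of_lt (α := ℝ) hz
  obtain ⟨w₁, hw₁, hw₁'⟩ : ψ Complex.I ∈ ψ' '' {z | 0 < z.im} := by
    rw [← him]
    exact ⟨_, hI, rfl⟩
  have hs : 0 < w₁.im := hw₁
  set A : ℂ → ℂ := fun z => (w₁.im : ℝ) * z + (w₁.re : ℝ) with hA
  have hAim : ∀ z : ℂ, (A z).im = w₁.im * z.im := by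
    intro z
    simp [hA]
  have hAI : A Complex.I = w₁ := by
    apply Complex.ext <;> simp [hA]
  have hAd : Differentiable ℂ A := by
    rw [hA]
    fun_prop
  have hAm : MapsTo A {z | 0 < z.im} {z | 0 < z.im} := by
    intro z hz
    have hz' : 0 < z.im := hz
    show 0 < (A z).im
    rw [hAim]
    exact mul_pos hs hz'
  have hAi : Function.Injective A := by
    intro z z' hzz
    have h1 : ((w₁.im : ℝ) : ℂ) * z = (w₁.im : ℝ) * z' := add_right_cancel hzz
    exact mul_left_cancel₀ (by exact_mod_cast hs.ne') h1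
  have hAimg : A '' {z | 0 < z.im} = {z | 0 < z.im} := by
    refine Subset.antisymm hAm.image_subset ?_
    intro z hz
    have hz' : 0 < z.im := hz
    have hs' : ((w₁.im : ℝ) : ℂ) ≠ 0 := by exact_mod_cast hs.ne'
    refine ⟨(z - (w₁.re : ℝ)) / (w₁.im : ℝ), ?_, ?_⟩
    · show 0 < ((z - ((w₁.re : ℝ) : ℂ)) / ((w₁.im : ℝ) : ℂ)).im
      rw [Complex.div_ofReal_im, Complex.sub_im, Complex.ofReal_im, sub_zero]
      exact div_pos hz' hs
    · show ((w₁.im : ℝ) : ℂ) * ((z - ((w₁.re : ℝ) : ℂ)) / ((w₁.im : ℝ) : ℂ)) +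
        ((w₁.re : ℝ) : ℂ) = z
      field_simp
      ring
  have hc := conf_of hd (h.inj.mono hsub)
  have hc' : Conf (fun u => (ψ' ∘ A) (imb 1 Complex.I u)) (ψ '' {z | 0 < z.im}) := by
    have h1 := conf_of (ψ := ψ' ∘ A) (hd'.comp hAd.differentiableOn hAm)
      ((h'.inj.mono hsub).comp hAi.injOn hAm)
    rwa [image_comp, hAimg, ← him] at h1
  obtain ⟨c, hc1, hcE⟩ := hc.rigid hc' (by
    simp only [Function.comp_apply]
    rw [imb_I_zero, hAI, hw₁'])
  -- the rotation is trivial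
  have hc0 : c = 1 := by
    by_contra hne
    have hu : Tendsto (fun n : ℕ => mb 1 Complex.I (((n : ℝ) + 1 : ℝ) * Complex.I)) atTop
        (𝓝 1) := by
      refine (tendsto_mb 1 Complex.I).comp ?_
      rw [← tendsto_norm_atTop_iff_cobounded]
      have h1 : ∀ n : ℕ, ‖(((n : ℝ) + 1 : ℝ) : ℂ) * Complex.I‖ = (n : ℝ) + 1 := by
        intro n
        rw [norm_mul, Complex.norm_I, mul_one, Complex.norm_real,
          Real.norm_of_nonneg (by positivity)]
      simp_rw [h1]
      exact tendsto_atTop_add_const_right _ _ tendsto_natCast_atTop_atTop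
    have hpos : ∀ n : ℕ, 0 < ((((n : ℝ) + 1 : ℝ) : ℂ) * Complex.I).im := by
      intro n
      have : (0 : ℝ) < (n : ℝ) + 1 := by positivity
      simpa using this
    have hub : ∀ n : ℕ, mb 1 Complex.I (((n : ℝ) + 1 : ℝ) * Complex.I) ∈ ball (0 : ℂ) 1 :=
      fun n => mem_ball_zero_iff.2 (norm_mb_lt (by simp) hI (hpos n))
    have e1 : ∀ n : ℕ, ψ' (A (((n : ℝ) + 1 : ℝ) * Complex.I)) =
        ψ (imb 1 Complex.I (c * mb 1 Complex.I (((n : ℝ) + 1 : ℝ) * Complex.I))) := by
      intro n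
      have h1 := hcE _ (hub n)
      simp only [Function.comp_apply] at h1
      rwa [imb_mb (by simp) hI (hpos n).le] at h1
    have e2 : Tendsto (fun n : ℕ => ψ' (A (((n : ℝ) + 1 : ℝ) * Complex.I))) atTop (𝓝 b) := by
      refine h'.inf.comp (tendsto_inf.2 ⟨?_, ?_⟩)
      · rw [← tendsto_norm_atTop_iff_cobounded]
        refine tendsto_atTop_mono (f := fun n : ℕ => w₁.im * ((n : ℝ) + 1)) (fun n => ?_) ?_
        · refine le_trans ?_ (Complex.abs_im_le_norm _)
          rw [hAim]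
          refine le_trans (le_of_eq ?_) (le_abs_self _)
          congr 1
          simp
        · exact (tendsto_atTop_add_const_right _ _ tendsto_natCast_atTop_atTop).const_mul_atTop hs
      · rw [tendsto_principal]
        exact Eventually.of_forall fun n => hsub (hAm (hpos n))
    have e3 : Tendsto (fun n : ℕ =>
        ψ (imb 1 Complex.I (c * mb 1 Complex.I (((n : ℝ) + 1 : ℝ) * Complex.I)))) atTop
        (𝓝 (ψ (imb 1 Complex.I c))) := by
      have h1 : imb 1 Complex.I c ∈ HC := imb_im_nonneg (by simp) hI hc1.le hne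
      refine (h.cont _ h1).tendsto.comp (tendsto_nhdsWithin_iff.2 ⟨?_, ?_⟩)
      · have h2 : Tendsto (fun n : ℕ =>
            c * mb 1 Complex.I (((n : ℝ) + 1 : ℝ) * Complex.I)) atTop (𝓝 c) := by
          simpa using hu.const_mul c
        exact (imb_differentiableAt hne).continuousAt.tendsto.comp h2
      · refine Eventually.of_forall fun n => hsub ?_
        have h3 : c * mb 1 Complex.I (((n : ℝ) + 1 : ℝ) * Complex.I) ∈ ball (0 : ℂ) 1 := by
          rw [mem_ball_zero_iff, norm_mul, hc1, one_mul]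
          exact mem_ball_zero_iff.1 (hub n)
        rw [← imb_image]
        exact mem_image_of_mem _ h3
    simp_rw [e1] at e2
    exact h.ne _ (imb_im_nonneg (by simp) hI hc1.le hne) (tendsto_nhds_unique e3 e2)
  subst hc0
  have hin : ∀ z : ℂ, 0 < z.im → ψ z = ψ' (A z) := by
    intro z hz
    have h1 := hcE _ (mem_ball_zero_iff.2 (norm_mb_lt (β := 1) (c := Complex.I) (by simp) hI hz))
    simp only [Function.comp_apply, one_mul] at h1
    rw [imb_mb (by simp) hI hz.le] at h1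
    exact h1.symm
  refine ⟨w₁.im, w₁.re, hs, fun z hz => ?_⟩
  show ψ z = ψ' (A z)
  have hz' : 0 ≤ z.im := hz
  have hseq : Tendsto (fun n : ℕ => z + ((1 / ((n : ℝ) + 1) : ℝ) : ℂ) * Complex.I) atTop
      (𝓝 z) := by
    have h2 : Tendsto (fun n : ℕ => ((1 / ((n : ℝ) + 1) : ℝ) : ℂ)) atTop (𝓝 ((0 : ℝ) : ℂ)) :=
      (Complex.continuous_ofReal.tendsto _).comp tendsto_one_div_add_atTop_nhds_zero_nat
    have h3 := (tendsto_const_nhds (x := z)).add (h2.mul_const Complex.I)
    simpa using h3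
  have hpos : ∀ n : ℕ, 0 < (z + ((1 / ((n : ℝ) + 1) : ℝ) : ℂ) * Complex.I).im := by
    intro n
    have : 0 < 1 / ((n : ℝ) + 1) := by positivity
    simp only [Complex.add_im, Complex.mul_im, Complex.ofReal_re, Complex.I_im, mul_one,
      Complex.ofReal_im, Complex.I_re, mul_zero, add_zero]
    linarith
  have l1 : Tendsto (fun n : ℕ => ψ (z + ((1 / ((n : ℝ) + 1) : ℝ) : ℂ) * Complex.I)) atTop
      (𝓝 (ψ z)) :=
    (h.cont z hz).tendsto.comp (tendsto_nhdsWithin_iff.2
      ⟨hseq, Eventually.of_forall fun n => le_of_lt (α := ℝ) (hpos n)⟩)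
  have hAz : A z ∈ HC := by
    show 0 ≤ (A z).im
    rw [hAim]
    exact mul_nonneg hs.le hz'
  have l2 : Tendsto (fun n : ℕ => ψ' (A (z + ((1 / ((n : ℝ) + 1) : ℝ) : ℂ) * Complex.I))) atTop
      (𝓝 (ψ' (A z))) :=
    (h'.cont _ hAz).tendsto.comp (tendsto_nhdsWithin_iff.2
      ⟨(hAd.continuous.tendsto z).comp hseq, Eventually.of_forall fun n => hsub (hAm (hpos n))⟩)
  refine tendsto_nhds_unique l1 (l2.congr fun n => ?_)
  exact (hin _ (hpos n)).symm

end Vale.Agent.P167.H264
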