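import Vale.Agent.P167.H264.Aut
import Vale.Agent.P167.H397.Q.Tra2
import Vale.Agent.P167.H397.Q.S2Mono
import Vale.Agent.P153.R2.R1.Out1

/-!
# P167, general `q`, Stage II: the limit of the probabilities of `L` is monotone in the argument
-/

set_option autoImplicit false

open MeasureTheory Filter Topology Set

namespace Vale.Agent.P167.H397.Q

open Vale.Agent.P167.E6 Vale.Agent.P167.E2
open Vale.Agent.P153.R2.Final (dom circ toC IsUniformizer)
open Vale.Agent.P153.R2.DET (Uni HC)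
open Vale.Agent.P167.SLE (bq)
open Vale.Agent.P167.QE (Cls)

/-- A function of the half-plane which is invariant under scaling and increases under the
translation by `x`, `x > 0`, decreases with the argument. -/
theorem mono_cross {h : ℂ → ℝ} (hP : PasF h) {x : ℝ}
    (hx : ∀ z : ℂ, 0 < z.im → h z ≤ h (z + x)) {z z' : ℂ} (hz : 0 < z.im) (hz' : 0 < z'.im)
    (hc : 0 < (z.re * z'.im - z.im * z'.re) * x) : h z' ≤ h z := by
  -- `r z' + x = r' z`
  set c : ℝ := z.re * z'.im - z.im * z'.re with hcdef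
  have hc0 : c ≠ 0 := by
    rintro h0
    rw [h0, zero_mul] at hc
    exact lt_irrefl _ hc
  have hxc : 0 < x / c := by
    have : x / c = (c * x) / c ^ 2 := by field_simp
    rw [this]
    positivity
  have hr : 0 < x / c * z.im := mul_pos hxc hz
  have hr' : 0 < x / c * z'.im := mul_pos hxc hz'
  have e : ((x / c * z.im : ℝ) : ℂ) * z' + (x : ℂ) = ((x / c * z'.im : ℝ) : ℂ) * z := by
    apply Complex.ext
    · simp only [Complex.add_re, Complex.re_ofReal_mul, Complex.ofReal_re]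
      have h1 : x = x / c * c := by field_simp
      nth_rewrite 2 [h1]
      rw [hcdef]
      ring
    · simp only [Complex.add_im, Complex.im_ofReal_mul, Complex.ofReal_im]
      ring
  have h1 := hx (((x / c * z.im : ℝ) : ℂ) * z') (by
    rw [Complex.im_ofReal_mul]
    exact mul_pos hr hz')
  rw [e, hP.scale _ z' hr hz', hP.scale _ z hr' hz] at h1
  exact h1

/-- The cross product in terms of the arguments. -/
theorem cross_eq (z z' : ℂ) :
    z.re * z'.im - z.im * z'.re = ‖z‖ * ‖z'‖ * Real.sin (z'.arg - z.arg) := by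
  have h1 := Complex.norm_mul_cos_arg z
  have h2 := Complex.norm_mul_sin_arg z
  have h3 := Complex.norm_mul_cos_arg z'
  have h4 := Complex.norm_mul_sin_arg z'
  rw [Real.sin_sub]
  rw [← h1, ← h2, ← h3, ← h4]
  ring

theorem mono_arg {h : ℂ → ℝ} (hP : PasF h) {x : ℝ} (hx0 : x ≠ 0)
    (hx : ∀ z : ℂ, 0 < z.im → h z ≤ h (z + x)) : Mono h := by
  have hpos : ∀ z : ℂ, 0 < z.im → 0 < z.arg ∧ z.arg < Real.pi := by
    intro z hz
    refine ⟨lt_of_le_of_ne (Complex.arg_nonneg_iff.2 hz.le) fun h0 => ?_,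
      lt_of_le_of_ne (Complex.arg_le_pi z) fun h0 => ?_⟩
    · have := (Complex.arg_eq_zero_iff.1 h0.symm).2
      exact hz.ne' this
    · have := (Complex.arg_eq_pi_iff.1 h0).2
      exact hz.ne' this
  have heq : ∀ z z' : ℂ, 0 < z.im → 0 < z'.im → z.arg = z'.arg → h z = h z' := by
    intro z z' hz hz' ha
    have hn : z ≠ 0 := by rintro rfl; simp at hz
    have hn' : z' ≠ 0 := by rintro rfl; simp at hz'
    have h1 : z' = ((‖z'‖ / ‖z‖ : ℝ) : ℂ) * z := by
      have := (Complex.arg_eq_arg_iff hn hn').1 ha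
      push_cast
      exact this.symm
    have h2 : 0 < ‖z'‖ / ‖z‖ := div_pos (norm_pos_iff.2 hn') (norm_pos_iff.2 hn)
    rw [h1, hP.scale _ _ h2 hz]
  have hlt : ∀ z z' : ℂ, 0 < z.im → 0 < z'.im → z.arg < z'.arg →
      0 < z.re * z'.im - z.im * z'.re := by
    intro z z' hz hz' ha
    rw [cross_eq]
    have hn : z ≠ 0 := by rintro rfl; simp at hz
    have hn' : z' ≠ 0 := by rintro rfl; simp at hz'
    have h1 := hpos z hz
    have h2 := hpos z' hz'
    exact mul_pos (mul_pos (norm_pos_iff.2 hn) (norm_pos_iff.2 hn'))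
      (Real.sin_pos_of_pos_of_lt_pi (by linarith) (by linarith))
  rcases lt_or_gt_of_ne hx0 with hneg | hp
  · left
    intro z z' hz hz' ha
    rcases ha.eq_or_lt with ha | ha
    · exact (heq z z' hz hz' ha).le
    · refine mono_cross hP hx hz' hz ?_
      have h1 := hlt z z' hz hz' ha
      nlinarith
  · right
    intro z z' hz hz' ha
    rcases ha.eq_or_lt with ha | ha
    · exact (heq z z' hz hz' ha).ge
    · exact mono_cross hP hx hz hz' (mul_pos (hlt z z' hz hz' ha) hp)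

/-- **The limit is monotone.** -/
theorem mono_of {K : Cls} {q : ℝ} {h : ℂ → ℝ} (_hq : 1 ≤ q) (hr : S_rot q) (h2 : Two K)
    (hP : PasF h) (hL : PasLim K q h) : Mono h := by
  obtain ⟨Φ, Φ', δ, N, k, j, p, S, hj, hA, hK, hA', hK', hdom, hb, ha⟩ := h2
  obtain ⟨ψ, hψ⟩ := Vale.Agent.P153.R2.R1.i_unif Φ
  obtain ⟨ψ', hψ'⟩ := Vale.Agent.P153.R2.R1.i_unif Φ'
  have hbq : bq Φ' = bq Φ := by rw [bq_eq, bq_eq, hb]
  have hU := uni_of hψ
  have hU' := uni_of hψ'
  rw [hbq] at hU'
  obtain ⟨s, t, hs, hst⟩ := H264.aut hU hU' hψ.1 hψ'.1 (by rw [hψ.2.2.1, hψ'.2.2.1, hdom])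
  have h0 : (0 : ℂ) ∈ HC := le_refl (α := ℝ) 0
  have ht : t ≠ 0 := by
    rintro rfl
    have h1 := hst 0 h0
    rw [Complex.ofReal_zero, mul_zero, add_zero, hψ.2.2.2.2.1, hψ'.2.2.2.2.1] at h1
    exact ha (toC_inj h1).symm
  have him : ∀ z : ℂ, 0 < z.im → 0 < ((s : ℂ) * z + (t : ℂ)).im := by
    intro z hz
    rw [Complex.add_im, Complex.im_ofReal_mul, Complex.ofReal_im, add_zero]
    exact mul_pos hs hz
  refine mono_arg hP (x := t / s) (div_ne_zero ht hs.ne') fun z hz => ?_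
  have hz0 : z ∈ HC := le_of_lt (α := ℝ) hz
  have hpz := psi_mem hψ hz
  have hf := tendsto_face (fun n => (hA.1 n).1) hA.2.1 (ψ z)
  have hf' := hf
  rw [hst z hz0] at hf'
  have l1 := hL Φ ψ δ N k p S hψ hA hK z hz _ hf
  have l2 := hL Φ' ψ' δ N (fun n => k n - j n)
    (fun n i => p n (i + ((j n : ℕ) : ZMod (N n)))) S hψ' hA' hK' _ (him z hz) _ hf'
  have hle : h z ≤ h ((s : ℂ) * z + (t : ℂ)) := by
    refine le_of_tendsto_of_tendsto l1 l2 ?_
    filter_upwards [faces_mem hA hpz hf] with n hn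
    have h3 := hA.1 n
    have h4 := hr (N n) (p n) (k n) (j n) (S n) _ h3.2.2.2.1 h3.2.2.2.2 (hj n) h3.2.2.1 hn
    simpa only [hst z hz0] using h4
  have e : (s : ℂ) * z + (t : ℂ) = ((s : ℝ) : ℂ) * (z + ((t / s : ℝ) : ℂ)) := by
    have : ((s : ℝ) : ℂ) ≠ 0 := by exact_mod_cast hs.ne'
    push_cast
    field_simp
  have him2 : 0 < (z + ((t / s : ℝ) : ℂ)).im := by
    rw [Complex.add_im, Complex.ofReal_im, add_zero]
    exact hz
  rw [e, hP.scale s _ hs him2] at hle
  exact hle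

end Vale.Agent.P167.H397.Q
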