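import Vale.Agent.P167.H713.Q.BadJ2

/-!
# P167, general `q`, [NEARL]: squares near the banks, lattice lemmas for `Up` / `Lo`

`n1` … `n4`: an open unread square with a corner on the right bank, on the left bank, an outer face, a
wired vertex contains a point of `Om` on the right (left) side. `n5`, `n6`: the squares around a site.
-/

set_option autoImplicit false

namespace Vale.Agent.P167.H264.NearL

open Set Filter Topology Metric Relation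
open Vale.Agent.P167.E6 Vale.Agent.P167.E2
open Vale.Agent.P167.H634 (RO LO RX VB FB Dm Bx SqD Dm_sq sq_edge)
open Vale.Agent.P167.H72.SD (dk om Wr LB RB turn open_LB closed_RB mem_dk)
open Vale.Agent.P167.H161 (zp Rd mem_Rd)
open Vale.Agent.P167.H713.Q (Io I1 mem_Io Io_sub even_cor odd_cor even_Om edges_of_dk)
open Vale.Agent.P167.FKA (Cor)

/-- A point of the open square near a corner. -/
theorem ip_spec {x s : ℤ × ℤ} (h : Cor x s) : ∃ w : ℂ, w ∈ I1 x ∧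
    |w.re - ((s.1 : ℝ) + s.2) / 2| ≤ 1 / 8 ∧ |w.im - ((s.2 : ℝ) - s.1) / 2| ≤ 1 / 8 := by
  obtain ⟨x1, x2⟩ := x
  obtain ⟨s1, s2⟩ := s
  have key : ∀ e1 e2 : ℝ, |e1| ≤ 1 / 8 → |e2| ≤ 1 / 8 →
      (x1 : ℝ) < s1 + e1 → (s1 : ℝ) + e1 < x1 + 1 → (x2 : ℝ) < s2 + e2 → (s2 : ℝ) + e2 < x2 + 1 →
      ∃ w : ℂ, w ∈ I1 (x1, x2) ∧
      |w.re - ((s1 : ℝ) + s2) / 2| ≤ 1 / 8 ∧ |w.im - ((s2 : ℝ) - s1) / 2| ≤ 1 / 8 := by
    intro e1 e2 a1 a2 b1 b2 b3 b4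
    rw [abs_le] at a1 a2
    refine ⟨⟨((s1 : ℝ) + s2 + e1 + e2) / 2, ((s2 : ℝ) - s1 + e2 - e1) / 2⟩, ⟨⟨?_, ?_⟩, ?_, ?_⟩,
      ?_, ?_⟩
    · dsimp only; linarith
    · dsimp only; linarith
    · dsimp only; linarith
    · dsimp only; linarith
    · dsimp only
      rw [abs_le]
      constructor <;> linarith [a1.1, a1.2, a2.1, a2.2]
    · dsimp only
      rw [abs_le]
      constructor <;> linarith [a1.1, a1.2, a2.1, a2.2]
  have h8 : |(1 / 8 : ℝ)| ≤ 1 / 8 := by rw [abs_of_pos (by norm_num)]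
  have h8' : |(-1 / 8 : ℝ)| ≤ 1 / 8 := by rw [abs_le]; constructor <;> norm_num
  obtain ⟨h1, h2⟩ := h
  dsimp only at h1 h2
  rcases h1 with rfl | rfl <;> rcases h2 with rfl | rfl
  · exact key (1 / 8) (1 / 8) h8 h8 (by linarith) (by linarith) (by linarith) (by linarith)
  · exact key (1 / 8) (-1 / 8) h8 h8' (by linarith) (by linarith)
      (by push_cast; linarith) (by push_cast; linarith)
  · exact key (-1 / 8) (1 / 8) h8' h8 (by push_cast; linarith) (by push_cast; linarith)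
      (by linarith) (by linarith)
  · exact key (-1 / 8) (-1 / 8) h8' h8' (by push_cast; linarith) (by push_cast; linarith)
      (by push_cast; linarith) (by push_cast; linarith)

theorem mem_Bx {δ : ℝ} (hδ : 0 < δ) {ρ x y : ℝ} {w : ℂ} (h1 : |w.re - x| ≤ ρ)
    (h2 : |w.im - y| ≤ ρ) : (δ : ℂ) * w ∈ Bx δ ρ x y := by
  unfold Bx
  rw [mem_ofPred_eq, Complex.re_ofReal_mul, Complex.im_ofReal_mul, ← mul_sub, ← mul_sub, abs_mul,
    abs_mul, abs_of_pos hδ]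
  exact ⟨mul_le_mul_of_nonneg_left h1 hδ.le, mul_le_mul_of_nonneg_left h2 hδ.le⟩

section

variable {n : ℕ} {p : ZMod n → ℤ × ℤ} {k : ℕ} {S : Finset (ℤ × ℤ)} {A : Finset (Sym2 (ℤ × ℤ))}
  {j : ℕ} {δ : ℝ}

/-- The points of an outer face at distance `1/4` from its sides. -/
theorem far_region (hδ : 0 < δ) {g : ℤ × ℤ} (hg : g ∉ S) {w : ℂ}
    (h1 : (g.1 : ℝ) + 1 / 4 ≤ w.re) (h2 : w.re ≤ g.1 + 3 / 4) (h3 : (g.2 : ℝ) + 1 / 4 ≤ w.im)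
    (h4 : w.im ≤ g.2 + 3 / 4) : ∀ y ∈ region δ S,
      δ / 4 ≤ |((δ : ℂ) * w).re - y.re| ∨ δ / 4 ≤ |((δ : ℂ) * w).im - y.im| := by
  rintro y ⟨f, hf, a1, a2, a3, a4⟩
  rw [Complex.re_ofReal_mul, Complex.im_ofReal_mul]
  have hne : f.1 ≤ g.1 - 1 ∨ g.1 + 1 ≤ f.1 ∨ f.2 ≤ g.2 - 1 ∨ g.2 + 1 ≤ f.2 := by
    by_contra hcon
    push Not at hcon
    obtain ⟨c1, c2, c3, c4⟩ := hcon
    exact hg ((Prod.ext (by omega) (by omega) : f = g) ▸ hf)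
  rcases hne with h | h | h | h
  · left
    have hR : (f.1 : ℝ) + 1 ≤ g.1 := by
      have : (f.1 : ℝ) ≤ g.1 - 1 := by exact_mod_cast h
      linarith
    refine le_trans ?_ (le_abs_self _)
    nlinarith [mul_le_mul_of_nonneg_left hR hδ.le, mul_le_mul_of_nonneg_left h1 hδ.le]
  · left
    have hR : (g.1 : ℝ) + 1 ≤ f.1 := by exact_mod_cast h
    refine le_trans ?_ (neg_le_abs _)
    nlinarith [mul_le_mul_of_nonneg_left hR hδ.le, mul_le_mul_of_nonneg_left h2 hδ.le]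
  · right
    have hR : (f.2 : ℝ) + 1 ≤ g.2 := by
      have : (f.2 : ℝ) ≤ g.2 - 1 := by exact_mod_cast h
      linarith
    refine le_trans ?_ (le_abs_self _)
    nlinarith [mul_le_mul_of_nonneg_left hR hδ.le, mul_le_mul_of_nonneg_left h3 hδ.le]
  · right
    have hR : (g.2 : ℝ) + 1 ≤ f.2 := by exact_mod_cast h
    refine le_trans ?_ (neg_le_abs _)
    nlinarith [mul_le_mul_of_nonneg_left hR hδ.le, mul_le_mul_of_nonneg_left h4 hδ.le]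

/-- The point of the outer half of the diamond of an edge of the polygon. -/
theorem outer_pt {a : ℤ × ℤ} (r : Fin 4) (hf : face a r ∈ S) : ∃ w : ℂ,
    w ∈ I1 (H192.sq s(a, a + dir r)) ∧ w ∈ O1 (S : Set (ℤ × ℤ)) ∧
      (((face a (r - 1)).1 : ℝ) + 1 / 4 ≤ w.re ∧ w.re ≤ (face a (r - 1)).1 + 3 / 4) ∧
      ((face a (r - 1)).2 : ℝ) + 1 / 4 ≤ w.im ∧ w.im ≤ (face a (r - 1)).2 + 3 / 4 := by
  rw [sq_edge]
  revert r
  refine forall4 ?_ ?_ ?_ ?_ <;> intro hf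
  · refine ⟨⟨a.1 + 1 / 2, a.2 - 5 / 16⟩, ?_, ⟨face a 0, hf, ?_, ?_, ?_, ?_⟩, ⟨?_, ?_⟩, ?_, ?_⟩ <;>
      simp only [f4_0m, face0, face3, H192.ro, I1, mem_ofPred_eq] <;> push_cast <;>
      (try refine ⟨⟨?_, ?_⟩, ?_, ?_⟩) <;> linarith
  · refine ⟨⟨a.1 + 5 / 16, a.2 + 1 / 2⟩, ?_, ⟨face a 1, hf, ?_, ?_, ?_, ?_⟩, ⟨?_, ?_⟩, ?_, ?_⟩ <;>
      simp only [f4_1m, face0, face1, H192.ro, I1, mem_ofPred_eq] <;> push_cast <;>
      (try refine ⟨⟨?_, ?_⟩, ?_, ?_⟩) <;> linarith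
  · refine ⟨⟨a.1 - 1 / 2, a.2 + 5 / 16⟩, ?_, ⟨face a 2, hf, ?_, ?_, ?_, ?_⟩, ⟨?_, ?_⟩, ?_, ?_⟩ <;>
      simp only [f4_2m, face1, face2, H192.ro, I1, mem_ofPred_eq] <;> push_cast <;>
      (try refine ⟨⟨?_, ?_⟩, ?_, ?_⟩) <;> linarith
  · refine ⟨⟨a.1 - 5 / 16, a.2 - 1 / 2⟩, ?_, ⟨face a 3, hf, ?_, ?_, ?_, ?_⟩, ⟨?_, ?_⟩, ?_, ?_⟩ <;>
      simp only [f4_3m, face2, face3, H192.ro, I1, mem_ofPred_eq] <;> push_cast <;>
      (try refine ⟨⟨?_, ?_⟩, ?_, ?_⟩) <;> linarith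

theorem n3' (hδ : 0 < δ) (hp : IsPolygon p) (hS : Encloses p S) {a : ℤ × ℤ} {r : Fin 4}
    (hx : H192.sq s(a, a + dir r) ∈ dk p k S A j) (h1 : face a r ∈ S) (h2 : face a (r - 1) ∉ S) :
    (Io δ (H192.sq s(a, a + dir r)) ∩ Om δ S ∩ RO p k S A δ (j - 1)).Nonempty := by
  obtain ⟨w, hw1, hw2, hw3, hw4⟩ := outer_pt r h1
  obtain ⟨i, hi1, hi2⟩ := (hS a r).2 ⟨h1, h2⟩
  have : NeZero n := ⟨by have := hp.1; omega⟩
  refine ⟨(δ : ℂ) * w, ⟨(mem_Io hδ).2 hw1, (mem_Om hδ).2 hw2⟩, Or.inr (Or.inr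
    ⟨far_region hδ h2 hw3.1 hw3.2 hw4.1 hw4.2, Or.inr ⟨i.val, ZMod.val_lt i, ?_, ?_⟩⟩)⟩
  · rw [ZMod.natCast_zmod_val, hi1, hi2]
    intro hcon
    have h3 := (mem_dk.1 hx).1
    rw [H718.mem_Dq ⟨a, r, rfl⟩] at h3
    exact h3.2 (H718.mem_wE.2 hcon)
  · rw [ZMod.natCast_zmod_val, hi1, hi2, Dm_sq hδ]
    exact Io_sub hδ _ ((mem_Io hδ).2 hw1)

/-- **(N3)** -/
theorem n3 (hδ : 0 < δ) (hp : IsPolygon p) (hS : Encloses p S) {x s : ℤ × ℤ}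
    (hx : x ∈ dk p k S A j) (hs : (s.1 + s.2) % 2 = 1) (hc : Cor x s) (hsS : H192.rf' s ∉ S) :
    (Io δ x ∩ Om δ S ∩ RO p k S A δ (j - 1)).Nonempty := by
  obtain ⟨a, r, hu⟩ := H192.isEdge_ed x
  have hx' : x = H192.sq s(a, a + dir r) := by rw [← hu, H192.sq_ed]
  have he := edges_of_dk hx
  rw [hu, E2.mem_edges] at he
  rw [hx'] at hx hc ⊢
  rcases odd_cor hs hc with rfl | rfl
  · rw [H192.rf'_rf] at hsS
    have h1 := he.resolve_left hsS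
    have e1 : face (a + dir r) (r + 2) = face a (r - 1) := face_right a r
    have e2 : face (a + dir r) (r + 2 - 1) = face a r := by
      have e5 : ∀ r : Fin 4, r + 2 - 1 = r + 1 := by decide
      rw [e5]
      exact face_left a r
    have e3 : s(a, a + dir r) = s(a + dir r, a + dir r + dir (r + 2)) := by
      have e4 : a + dir r + dir (r + 2) = a := by
        revert r
        refine forall4 ?_ ?_ ?_ ?_ <;> intros <;> ext <;> simp [dir]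
      rw [e4, Sym2.eq_swap]
    rw [e3] at hx ⊢
    exact n3' hδ hp hS hx (by rw [e1]; exact h1) (by rw [e2]; exact hsS)
  · rw [H192.rf'_rf] at hsS
    exact n3' hδ hp hS hx (he.resolve_right hsS) hsS

/-- **(N1)** -/
theorem n1 (hδ : 0 < δ) (hp : IsPolygon p) (hS : Encloses p S) {u o : ℤ × ℤ}
    (hu : u ∈ dk p k S A j) (ho : o ∈ RB p k A j) (hc : Cor u o) :
    (Io δ u ∩ Om δ S ∩ RO p k S A δ (j - 1)).Nonempty := by
  obtain ⟨i, hi, rfl⟩ := ho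
  rw [H192.rs_me] at hc
  by_cases hf : face (run p k A i).1 (run p k A i).2 ∈ S
  swap
  · exact n3 hδ hp hS hu (H634.par_rf _) hc (by rw [H192.rf'_rf]; exact hf)
  obtain ⟨w, hw1, hw2, hw3⟩ := ip_spec hc
  simp only [H192.rf] at hw2 hw3
  push_cast at hw2 hw3
  set f := face (run p k A i).1 (run p k A i).2 with hfd
  have g1 : |w.re - ((f.1 : ℝ) + 1 / 2)| ≤ 1 / 8 := by
    rw [show w.re - ((f.1 : ℝ) + 1 / 2) =
      w.re - ((f.1 : ℝ) - f.2 + (f.1 + f.2 + 1)) / 2 by ring]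
    exact hw2
  have g2 : |w.im - ((f.2 : ℝ) + 1 / 2)| ≤ 1 / 8 := by
    rw [show w.im - ((f.2 : ℝ) + 1 / 2) =
      w.im - ((f.1 : ℝ) + f.2 + 1 - (f.1 - f.2)) / 2 by ring]
    exact hw3
  have k1 := abs_le.1 g1
  have k2 := abs_le.1 g2
  refine ⟨(δ : ℂ) * w, ⟨(mem_Io hδ).2 hw1, (mem_Om hδ).2 ⟨f, hf, ?_, ?_, ?_, ?_⟩⟩, Or.inl
    ⟨i, hi, hf, mem_Bx hδ (g1.trans (by norm_num)) (g2.trans (by norm_num))⟩⟩ <;>
    linarith [k1.1, k1.2, k2.1, k2.2]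

/-- A point near an even corner. -/
theorem even_pt (hδ : 0 < δ) {u v : ℤ × ℤ} (hu : u ∈ dk p k S A j) (hc : Cor u (H192.ro v)) :
    ∃ z, z ∈ Io δ u ∩ Om δ S ∧ z ∈ VB δ (1 / 4) v := by
  obtain ⟨w, hw1, hw2, hw3⟩ := ip_spec hc
  have h1 := even_Om hδ (edges_of_dk hu) (Int.even_iff.1 (H192.even_ro v)) hc
  rw [H161.zp_ro, mem_Om hδ] at h1
  obtain ⟨f, hf, b1, b2, b3, b4⟩ := h1
  simp only [pt] at b1 b2 b3 b4
  have c1 : f.1 - 1 < v.1 := by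
    have : (f.1 : ℝ) - 1 < v.1 := by linarith
    exact_mod_cast this
  have c2 : v.1 < f.1 + 2 := by
    have : (v.1 : ℝ) < f.1 + 2 := by linarith
    exact_mod_cast this
  have c3 : f.2 - 1 < v.2 := by
    have : (f.2 : ℝ) - 1 < v.2 := by linarith
    exact_mod_cast this
  have c4 : v.2 < f.2 + 2 := by
    have : (v.2 : ℝ) < f.2 + 2 := by linarith
    exact_mod_cast this
  have d1 : (f.1 : ℝ) ≤ v.1 := by exact_mod_cast (by omega : f.1 ≤ v.1)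
  have d2 : (v.1 : ℝ) ≤ f.1 + 1 := by exact_mod_cast (by omega : v.1 ≤ f.1 + 1)
  have d3 : (f.2 : ℝ) ≤ v.2 := by exact_mod_cast (by omega : f.2 ≤ v.2)
  have d4 : (v.2 : ℝ) ≤ f.2 + 1 := by exact_mod_cast (by omega : v.2 ≤ f.2 + 1)
  simp only [H192.ro] at hw2 hw3
  push_cast at hw2 hw3
  have g1 : |w.re - (v.1 : ℝ)| ≤ 1 / 8 := by
    rw [show w.re - (v.1 : ℝ) = w.re - ((v.1 : ℝ) - v.2 + (v.1 + v.2)) / 2 by ring]
    exact hw2
  have g2 : |w.im - (v.2 : ℝ)| ≤ 1 / 8 := by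
    rw [show w.im - (v.2 : ℝ) = w.im - ((v.1 : ℝ) + v.2 - (v.1 - v.2)) / 2 by ring]
    exact hw3
  have k1 := abs_le.1 g1
  have k2 := abs_le.1 g2
  refine ⟨(δ : ℂ) * w, ⟨(mem_Io hδ).2 hw1, (mem_Om hδ).2 ⟨f, hf, ?_, ?_, ?_, ?_⟩⟩,
    mem_Bx hδ (g1.trans (by norm_num)) (g2.trans (by norm_num))⟩ <;>
    linarith [k1.1, k1.2, k2.1, k2.2]

/-- **(N2)** -/
theorem n2 (hδ : 0 < δ) {u o : ℤ × ℤ} (hu : u ∈ dk p k S A j) (ho : o ∈ LB p k A j)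
    (hc : Cor u o) : (Io δ u ∩ Om δ S ∩ LO p k A δ (j - 1)).Nonempty := by
  obtain ⟨i, hi, rfl⟩ := ho
  rw [H192.ls_me] at hc
  obtain ⟨z, h1, h2⟩ := even_pt hδ hu hc
  exact ⟨z, h1, Or.inl ⟨i, hi, h2⟩⟩

/-- **(N4)** -/
theorem n4 (hδ : 0 < δ) {x : ℤ × ℤ} {i : ℕ} (hx : x ∈ dk p k S A j) (h1 : k ≤ i) (h2 : i < n)
    (hc : Cor x (H192.ro (p i))) : (Io δ x ∩ Om δ S ∩ LO p k A δ (j - 1)).Nonempty := by
  obtain ⟨z, h3, h4⟩ := even_pt hδ hx hc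
  exact ⟨z, h3, Or.inr (Or.inl ⟨i, h1, h2, h4⟩)⟩

/-- The odd corners of a square of an edge of the domain. -/
theorem edges_of_odd {x s : ℤ × ℤ} (hs : (s.1 + s.2) % 2 = 1) (hc : Cor x s)
    (h : H192.rf' s ∈ S) : H192.ed x ∈ edges S := by
  obtain ⟨a, r, hu⟩ := H192.isEdge_ed x
  have hx' : x = H192.sq s(a, a + dir r) := by rw [← hu, H192.sq_ed]
  rw [hu, E2.mem_edges]
  rw [hx'] at hc
  rcases odd_cor hs hc with rfl | rfl
  · rw [H192.rf'_rf] at h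
    exact Or.inl h
  · rw [H192.rf'_rf] at h
    exact Or.inr h

/-- **(N5)** -/
theorem n5 (hA : A ⊆ edges S) {x y s : ℤ × ℤ} (hx : x ∈ dk p k S A j) (hy : y ∉ H718.Dq S p k)
    (hs : (s.1 + s.2) % 2 = 0) (hxs : Cor x s) (hys : Cor y s) :
    s ∈ Wr (dk p k S A j) (om p k A) ∨
      (∃ u ∈ dk p k S A j, ∃ o : ℤ × ℤ, (o.1 + o.2) % 2 = 1 ∧ Cor u s ∧ Cor u o ∧
        H192.rf' o ∉ S) ∨
      ∃ u ∈ dk p k S A j, ∃ o ∈ RB p k A j, Cor u s ∧ Cor u o := by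
  obtain ⟨u, u', o, hu, hu', hus, hus', huo, huo', ho⟩ :=
    turn (X := (↑(dk p k S A j) : Set (ℤ × ℤ))) (Finset.mem_coe.2 hx)
      (fun h1 => hy (mem_dk.1 (Finset.mem_coe.1 h1)).1) hxs hys
  rw [Finset.mem_coe] at hu hu'
  have hod : (o.1 + o.2) % 2 = 1 := by omega
  cases hc : om p k A u' with
  | true => exact Or.inl ⟨Int.even_iff.2 hs, u', hu', hc, hus'⟩
  | false =>
    by_cases hq : u' ∈ H718.Dq S p k
    · have hR : u' ∈ Rd p k S A j := by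
        by_contra h1
        exact hu' (mem_dk.2 ⟨hq, h1⟩)
      exact Or.inr (Or.inr ⟨u, hu, o, closed_RB hA hR hc hod huo', hus, huo⟩)
    · refine Or.inr (Or.inl ⟨u, hu, o, hod, hus, huo, fun h => ?_⟩)
      refine hq ((H718.mem_Dq').2 ⟨edges_of_odd hod huo' h, fun h2 => ?_⟩)
      have h3 : om p k A u' = true := H72.SD.om_true.2 (Or.inr (H718.mem_wE.1 h2))
      rw [hc] at h3
      exact absurd h3 (by simp)

/-- **(N6)** -/
theorem n6 (hA : A ⊆ edges S) {x y s : ℤ × ℤ} (hx : x ∈ dk p k S A j)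
    (hs : (s.1 + s.2) % 2 = 1) (hsS : H192.rf' s ∈ S) (hxs : Cor x s) (hy : y ∉ dk p k S A j)
    (hys : Cor y s) : s ∈ H72.SD.Fr p k S A j ∨
      ∃ u ∈ dk p k S A j, ∃ o : ℤ × ℤ, (o.1 + o.2) % 2 = 0 ∧ Cor u s ∧ Cor u o ∧
        (o ∈ LB p k A j ∨ ∃ i : ℕ, k ≤ i ∧ i < n ∧ o = H192.ro (p i)) := by
  obtain ⟨u, u', o, hu, hu', hus, hus', huo, huo', ho⟩ :=
    turn (X := (↑(dk p k S A j) : Set (ℤ × ℤ))) (Finset.mem_coe.2 hx)
      (fun h1 => hy (Finset.mem_coe.1 h1)) hxs hys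
  rw [Finset.mem_coe] at hu hu'
  have hev : (o.1 + o.2) % 2 = 0 := by omega
  by_cases hq : u' ∈ H718.Dq S p k
  · have hR : u' ∈ Rd p k S A j := by
      by_contra h1
      exact hu' (mem_dk.2 ⟨hq, h1⟩)
    cases hc : om p k A u' with
    | true => exact Or.inr ⟨u, hu, o, hev, hus, huo, Or.inl (open_LB hA hR hc hev huo')⟩
    | false => exact Or.inl ⟨hs, u', hR, hc, hus'⟩
  · have h1 : H192.ed u' ∈ H718.wE p k := by
      by_contra h2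
      exact hq ((H718.mem_Dq').2 ⟨edges_of_odd hs hus' hsS, h2⟩)
    obtain ⟨i, hi1, hi2, hi3⟩ := H718.mem_wE.1 h1
    refine Or.inr ⟨u, hu, o, hev, hus, huo, Or.inr ?_⟩
    obtain ⟨a, r, hu0⟩ := H192.isEdge_ed u'
    have hx' : u' = H192.sq s(a, a + dir r) := by rw [← hu0, H192.sq_ed]
    rw [hx'] at huo'
    have h4 := even_cor hev huo'
    rw [hu0] at hi3
    have e1 : p ((i : ZMod n) + 1) = p ((i + 1 : ℕ) : ZMod n) := by push_cast; rfl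
    rw [Sym2.eq_iff] at hi3
    rcases hi3 with ⟨g1, g2⟩ | ⟨g1, g2⟩
    · rcases h4 with rfl | rfl
      · exact ⟨i, hi1, by omega, by rw [g1]⟩
      · exact ⟨i + 1, by omega, hi2, by rw [g2, e1]⟩
    · rcases h4 with rfl | rfl
      · exact ⟨i + 1, by omega, hi2, by rw [g1, e1]⟩
      · exact ⟨i, hi1, by omega, by rw [g2]⟩

end

end Vale.Agent.P167.H264.NearL
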