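import Vale.Agent.P167.H531.Q.Br5

/-!
# P167, general `q`, continuity: points of the slit domain near the start

`near_node0`: every point of the slit domain is joined to a node next to it, also near the start of the
path (531's `near_node` without `hfar`).
-/

set_option autoImplicit false
set_option linter.unusedVariables false
set_option linter.unusedSectionVars false
set_option linter.unnecessarySeqFocus false
set_option linter.unusedSimpArgs false
set_option linter.unusedTactic false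
set_option linter.unreachableTactic false

open Set Metric Relation

namespace Vale.Agent.P167.H264.NN

open Vale.Agent.P167.E6 Vale.Agent.P167.E2 Vale.Agent.P167.Fjord
open Vale.Agent.P167.H531.K

variable {n : ℕ} {p : ZMod n → ℤ × ℤ} {S : Finset (ℤ × ℤ)} {k : ℕ} {A : Finset (Sym2 (ℤ × ℤ))}
  {M : ℕ} {δ : ℝ} {w : ℂ}

/-! ### The local frame of a dart -/

/-- The point with local coordinates `X` (along `dir (c.2 + 1)`) and `Y` (along `dir c.2`). -/
noncomputable def L (c : Medial) (X Y : ℝ) : ℂ :=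
  ⟨c.1.1 + X * (dir (c.2 + 1)).1 + Y * (dir c.2).1, c.1.2 + X * (dir (c.2 + 1)).2 + Y * (dir c.2).2⟩

theorem L_0 (v : ℤ × ℤ) (X Y : ℝ) : L (v, 0) X Y = ⟨v.1 + Y, v.2 + X⟩ := by
  simp only [L, f4_01, dir0, dir1]
  apply Complex.ext <;> simp

theorem L_1 (v : ℤ × ℤ) (X Y : ℝ) : L (v, 1) X Y = ⟨v.1 - X, v.2 + Y⟩ := by
  simp only [L, f4_11, dir1, dir2]
  apply Complex.ext <;> simp <;> ring

theorem L_2 (v : ℤ × ℤ) (X Y : ℝ) : L (v, 2) X Y = ⟨v.1 - Y, v.2 - X⟩ := by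
  simp only [L, f4_21, dir2, dir3]
  apply Complex.ext <;> simp <;> ring

theorem L_3 (v : ℤ × ℤ) (X Y : ℝ) : L (v, 3) X Y = ⟨v.1 + X, v.2 - Y⟩ := by
  simp only [L, f4_31, dir0, dir3]
  apply Complex.ext <;> simp <;> ring

theorem L_ex (c : Medial) (w : ℂ) : ∃ X Y : ℝ, w = L c X Y := by
  obtain ⟨v, r⟩ := c
  revert r
  refine forall4 ?_ ?_ ?_ ?_ <;> simp only [L_0, L_1, L_2, L_3]
  · exact ⟨w.im - v.2, w.re - v.1, Complex.ext (by simp) (by simp)⟩
  · exact ⟨v.1 - w.re, w.im - v.2, Complex.ext (by simp) (by simp)⟩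
  · exact ⟨v.2 - w.im, v.1 - w.re, Complex.ext (by simp) (by simp)⟩
  · exact ⟨w.re - v.1, v.2 - w.im, Complex.ext (by simp) (by simp)⟩

/-- The face with the local coordinates `i`, `j`. -/
def fl (c : Medial) (i j : ℤ) : ℤ × ℤ :=
  ((fc c).1 + i * (dir (c.2 + 1)).1 + j * (dir c.2).1,
    (fc c).2 + i * (dir (c.2 + 1)).2 + j * (dir c.2).2)

theorem fl_0 (v : ℤ × ℤ) (i j : ℤ) : fl (v, 0) i j = (v.1 + j, v.2 + i) := by
  simp only [fl, f4_01, dir0, dir1, fc_0]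
  ext <;> simp

theorem fl_1 (v : ℤ × ℤ) (i j : ℤ) : fl (v, 1) i j = (v.1 - 1 - i, v.2 + j) := by
  simp only [fl, f4_11, dir1, dir2, fc_1]
  ext <;> simp <;> ring

theorem fl_2 (v : ℤ × ℤ) (i j : ℤ) : fl (v, 2) i j = (v.1 - 1 - j, v.2 - 1 - i) := by
  simp only [fl, f4_21, dir2, dir3, fc_2]
  ext <;> simp <;> ring

theorem fl_3 (v : ℤ × ℤ) (i j : ℤ) : fl (v, 3) i j = (v.1 + i, v.2 - 1 - j) := by
  simp only [fl, f4_31, dir0, dir3, fc_3]
  ext <;> simp <;> ring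

theorem fl_ex (c : Medial) (f : ℤ × ℤ) : ∃ i j : ℤ, f = fl c i j := by
  obtain ⟨v, r⟩ := c
  revert r
  refine forall4 ?_ ?_ ?_ ?_ <;> simp only [fl_0, fl_1, fl_2, fl_3]
  · exact ⟨f.2 - v.2, f.1 - v.1, by ext <;> simp⟩
  · exact ⟨v.1 - 1 - f.1, f.2 - v.2, by ext <;> simp⟩
  · exact ⟨v.2 - 1 - f.2, v.1 - 1 - f.1, by ext <;> simp⟩
  · exact ⟨f.1 - v.1, v.2 - 1 - f.2, by ext <;> simp⟩

theorem fl_zero (c : Medial) : fl c 0 0 = fc c := by
  simp [fl]

theorem fl_top (c : Medial) : fl c 0 (-1) = face c.1 (c.2 + 1) := by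
  obtain ⟨v, r⟩ := c
  revert r
  refine forall4 ?_ ?_ ?_ ?_ <;> simp only [fl_0, fl_1, fl_2, fl_3, f4_01, f4_11, f4_21, f4_31,
    face0, face1, face2, face3] <;> ext <;> simp <;> ring

theorem fl_left (c : Medial) : fl c (-1) 0 = face c.1 (c.2 - 1) := by
  obtain ⟨v, r⟩ := c
  revert r
  refine forall4 ?_ ?_ ?_ ?_ <;> simp only [fl_0, fl_1, fl_2, fl_3, f4_0m, f4_1m, f4_2m, f4_3m,
    face0, face1, face2, face3] <;> ext <;> simp <;> ring

theorem EF_L (c : Medial) (i j : ℤ) (X Y : ℝ) : L c X Y ∈ EF (fl c i j) ↔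
    (((i : ℝ) - 3 / 8 < X ∧ X < i + 11 / 8) ∧ (j : ℝ) - 3 / 8 < Y ∧ Y < j + 11 / 8) := by
  obtain ⟨v, r⟩ := c
  revert r
  refine forall4 ?_ ?_ ?_ ?_ <;> simp only [fl_0, fl_1, fl_2, fl_3, L_0, L_1, L_2, L_3, EF,
    mem_ofPred_eq] <;> push_cast <;> constructor <;> rintro ⟨⟨h1, h2⟩, h3, h4⟩ <;>
    refine ⟨⟨?_, ?_⟩, ?_, ?_⟩ <;> linarith

theorem Cc_L (c : Medial) (X Y : ℝ) : Cc (2 * (fc c).1) (2 * (fc c).2) (L c X Y) ↔
    ((1 / 4 ≤ X ∧ X ≤ 3 / 4) ∧ 1 / 4 ≤ Y ∧ Y ≤ 3 / 4) := by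
  obtain ⟨v, r⟩ := c
  revert r
  refine forall4 ?_ ?_ ?_ ?_ <;> simp only [fc_0, fc_1, fc_2, fc_3, L_0, L_1, L_2, L_3, Cc] <;>
    push_cast <;> constructor <;> rintro ⟨⟨h1, h2⟩, h3, h4⟩ <;>
    refine ⟨⟨?_, ?_⟩, ?_, ?_⟩ <;> linarith

theorem Co_L (c : Medial) (X Y : ℝ) : Co (2 * (fc c).1) (2 * (fc c).2) (L c X Y) ↔
    ((1 / 4 < X ∧ X < 3 / 4) ∧ 1 / 4 < Y ∧ Y < 3 / 4) := by
  obtain ⟨v, r⟩ := c
  revert r
  refine forall4 ?_ ?_ ?_ ?_ <;> simp only [fc_0, fc_1, fc_2, fc_3, L_0, L_1, L_2, L_3, Co] <;>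
    push_cast <;> constructor <;> rintro ⟨⟨h1, h2⟩, h3, h4⟩ <;>
    refine ⟨⟨?_, ?_⟩, ?_, ?_⟩ <;> linarith

theorem cpt_L (c : Medial) (θ : ℝ) : cpt θ c = L c θ θ := by
  obtain ⟨v, r⟩ := c
  revert r
  refine forall4 ?_ ?_ ?_ ?_ <;> simp only [cpt_0, cpt_1, cpt_2, cpt_3, L_0, L_1, L_2, L_3]

/-- The dart at the vertex `(1, 0)`. -/
def d1 (c : Medial) : Medial := (c.1 + dir (c.2 + 1), c.2 + 3)
/-- The dart at the vertex `(0, 1)`. -/
def d2 (c : Medial) : Medial := (c.1 + dir c.2, c.2 + 1)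
/-- The dart at the vertex `(1, 1)`. -/
def d3 (c : Medial) : Medial := (c.1 + dir c.2 + dir (c.2 + 1), c.2 + 2)
/-- The dart at the vertex `(0, 0)`, face `(-1, 0)`. -/
def d4 (c : Medial) : Medial := (c.1, c.2 + 3)

theorem cpt_d1 (c : Medial) : cpt (5 / 16) (d1 c) = L c (11 / 16) (5 / 16) ∧ fc (d1 c) = fc c := by
  obtain ⟨v, r⟩ := c
  revert r
  refine forall4 ?_ ?_ ?_ ?_ <;> simp only [d1, f4_01, f4_11, f4_21, f4_31, f4_03, f4_13, f4_23,
    f4_33, dir0, dir1, dir2, dir3, cpt_0, cpt_1, cpt_2, cpt_3, L_0, L_1, L_2, L_3, fc_0, fc_1, fc_2,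
    fc_3, Prod.fst_add, Prod.snd_add] <;> refine ⟨?_, ?_⟩ <;>
    first
    | (apply Complex.ext <;> push_cast <;> ring)
    | (ext <;> simp <;> ring)

theorem cpt_d2 (c : Medial) : cpt (5 / 16) (d2 c) = L c (5 / 16) (11 / 16) ∧ fc (d2 c) = fc c := by
  obtain ⟨v, r⟩ := c
  revert r
  refine forall4 ?_ ?_ ?_ ?_ <;> simp only [d2, f4_01, f4_11, f4_21, f4_31, f4_03, f4_13, f4_23,
    f4_33, dir0, dir1, dir2, dir3, cpt_0, cpt_1, cpt_2, cpt_3, L_0, L_1, L_2, L_3, fc_0, fc_1, fc_2,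
    fc_3, Prod.fst_add, Prod.snd_add] <;> refine ⟨?_, ?_⟩ <;>
    first
    | (apply Complex.ext <;> push_cast <;> ring)
    | (ext <;> simp <;> ring)

theorem cpt_d3 (c : Medial) : cpt (5 / 16) (d3 c) = L c (11 / 16) (11 / 16) ∧ fc (d3 c) = fc c := by
  obtain ⟨v, r⟩ := c
  revert r
  refine forall4 ?_ ?_ ?_ ?_ <;> simp only [d3, f4_01, f4_11, f4_21, f4_31, f4_02, f4_12, f4_22,
    f4_32, dir0, dir1, dir2, dir3, cpt_0, cpt_1, cpt_2, cpt_3, L_0, L_1, L_2, L_3, fc_0, fc_1, fc_2,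
    fc_3, Prod.fst_add, Prod.snd_add] <;> refine ⟨?_, ?_⟩ <;>
    first
    | (apply Complex.ext <;> push_cast <;> ring)
    | (ext <;> simp <;> ring)

theorem cpt_d4 (c : Medial) : cpt (5 / 16) (d4 c) = L c (-5 / 16) (5 / 16) ∧
    fc (d4 c) = face c.1 (c.2 - 1) := by
  obtain ⟨v, r⟩ := c
  revert r
  refine forall4 ?_ ?_ ?_ ?_ <;> simp only [d4, f4_03, f4_13, f4_23,
    f4_33, f4_0m, f4_1m, f4_2m, f4_3m, cpt_0, cpt_1, cpt_2, cpt_3, L_0, L_1, L_2, L_3, fc_0, fc_1,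
    fc_2, fc_3, face0, face1, face2, face3, and_true] <;>
    (apply Complex.ext <;> push_cast <;> ring)

/-- The faces around the three vertices. -/
theorem v1_verts {c : Medial} (h : fl c 0 (-1) ∈ S) : (d1 c).1 ∈ verts S := by
  refine mem_verts.2 ⟨c.2 + 2, ?_⟩
  have e : face (d1 c).1 (c.2 + 2) = fl c 0 (-1) := by
    clear h
    obtain ⟨v, r⟩ := c
    revert r
    refine forall4 ?_ ?_ ?_ ?_ <;> simp only [d1, f4_01, f4_11, f4_21, f4_31, f4_02, f4_12, f4_22,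
      f4_32, dir0, dir1, dir2, dir3, face0, face1, face2, face3, fl_0, fl_1, fl_2, fl_3,
      Prod.fst_add, Prod.snd_add] <;> (ext <;> simp <;> ring)
  rw [e]
  exact h

theorem v2_verts {c : Medial} (h : fl c (-1) 0 ∈ S ∨ fl c (-1) 1 ∈ S ∨ fl c 0 1 ∈ S) :
    (d2 c).1 ∈ verts S := by
  have e1 : face (d2 c).1 (c.2 + 2) = fl c (-1) 0 := by
    clear h
    obtain ⟨v, r⟩ := c
    revert r
    refine forall4 ?_ ?_ ?_ ?_ <;> simp only [d2, f4_01, f4_11, f4_21, f4_31, f4_02, f4_12, f4_22,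
      f4_32, dir0, dir1, dir2, dir3, face0, face1, face2, face3, fl_0, fl_1, fl_2, fl_3,
      Prod.fst_add, Prod.snd_add] <;> (ext <;> simp <;> ring)
  have e2 : face (d2 c).1 (c.2 + 3) = fl c (-1) 1 := by
    clear h e1
    obtain ⟨v, r⟩ := c
    revert r
    refine forall4 ?_ ?_ ?_ ?_ <;> simp only [d2, f4_01, f4_11, f4_21, f4_31, f4_03, f4_13, f4_23,
      f4_33, dir0, dir1, dir2, dir3, face0, face1, face2, face3, fl_0, fl_1, fl_2, fl_3,
      Prod.fst_add, Prod.snd_add] <;> (ext <;> simp <;> ring)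
  have e3 : face (d2 c).1 c.2 = fl c 0 1 := by
    clear h e1 e2
    obtain ⟨v, r⟩ := c
    revert r
    refine forall4 ?_ ?_ ?_ ?_ <;> simp only [d2, f4_01, f4_11, f4_21, f4_31,
      dir0, dir1, dir2, dir3, face0, face1, face2, face3, fl_0, fl_1, fl_2, fl_3,
      Prod.fst_add, Prod.snd_add] <;> (ext <;> simp <;> ring)
  rcases h with h | h | h
  · exact mem_verts.2 ⟨_, e1 ▸ h⟩
  · exact mem_verts.2 ⟨_, e2 ▸ h⟩
  · exact mem_verts.2 ⟨_, e3 ▸ h⟩

theorem v3_verts {c : Medial} (h : fl c 0 1 ∈ S ∨ fl c 1 1 ∈ S ∨ fl c 1 0 ∈ S) :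
    (d3 c).1 ∈ verts S := by
  have e1 : face (d3 c).1 (c.2 + 3) = fl c 0 1 := by
    clear h
    obtain ⟨v, r⟩ := c
    revert r
    refine forall4 ?_ ?_ ?_ ?_ <;> simp only [d3, f4_01, f4_11, f4_21, f4_31, f4_03, f4_13, f4_23,
      f4_33, dir0, dir1, dir2, dir3, face0, face1, face2, face3, fl_0, fl_1, fl_2, fl_3,
      Prod.fst_add, Prod.snd_add] <;> (ext <;> simp <;> ring)
  have e2 : face (d3 c).1 c.2 = fl c 1 1 := by
    clear h e1
    obtain ⟨v, r⟩ := c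
    revert r
    refine forall4 ?_ ?_ ?_ ?_ <;> simp only [d3, f4_01, f4_11, f4_21, f4_31,
      dir0, dir1, dir2, dir3, face0, face1, face2, face3, fl_0, fl_1, fl_2, fl_3,
      Prod.fst_add, Prod.snd_add] <;> (ext <;> simp <;> ring)
  have e3 : face (d3 c).1 (c.2 + 1) = fl c 1 0 := by
    clear h e1 e2
    obtain ⟨v, r⟩ := c
    revert r
    refine forall4 ?_ ?_ ?_ ?_ <;> simp only [d3, f4_01, f4_11, f4_21, f4_31,
      dir0, dir1, dir2, dir3, face0, face1, face2, face3, fl_0, fl_1, fl_2, fl_3,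
      Prod.fst_add, Prod.snd_add] <;> (ext <;> simp <;> ring)
  rcases h with h | h | h
  · exact mem_verts.2 ⟨_, e1 ▸ h⟩
  · exact mem_verts.2 ⟨_, e2 ▸ h⟩
  · exact mem_verts.2 ⟨_, e3 ▸ h⟩

/-- The points of a segment in local coordinates. -/
theorem seg_L {c : Medial} {X Y X' Y' : ℝ} {u : ℂ} (hu : u ∈ segment ℝ (L c X Y) (L c X' Y'))
    (hne : u ≠ L c X Y) : ∃ s : ℝ, 0 < s ∧ s ≤ 1 ∧ u = L c (X + s * (X' - X)) (Y + s * (Y' - Y)) := by
  obtain ⟨s, h0, h1, e1, e2⟩ := seg_pos hu hne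
  refine ⟨s, h0, h1, ?_⟩
  simp only [L] at e1 e2 ⊢
  apply Complex.ext
  · rw [e1]; ring
  · rw [e2]; ring

theorem L_inj {c : Medial} {X Y X' Y' : ℝ} (h : L c X Y = L c X' Y') : X = X' ∧ Y = Y' := by
  obtain ⟨v, r⟩ := c
  revert r
  refine forall4 ?_ ?_ ?_ ?_ <;> simp only [L_0, L_1, L_2, L_3] <;> intro h <;>
    have e1 := congrArg Complex.re h <;> have e2 := congrArg Complex.im h <;>
    simp only at e1 e2 <;> constructor <;> linarith

theorem bt_L {c : Medial} {u : ℂ} (hu : u ∈ Bt c) : ∃ t : ℝ, 1 / 4 ≤ t ∧ t ≤ 3 / 8 ∧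
    u = L c t t := by
  obtain ⟨s, h0, h1, e1, e2⟩ := seg_coord hu
  refine ⟨1 / 4 + s / 8, by linarith, by linarith, ?_⟩
  rw [cpt_L, cpt_L] at e1 e2
  simp only [L] at e1 e2 ⊢
  apply Complex.ext
  · rw [e1]; ring
  · rw [e2]; ring

/-- The first segment of the path is an obstacle. -/
theorem L_zM {t : ℝ} (h1 : 1 / 4 ≤ t) (h2 : t ≤ 3 / 8) : L (cs p) t t ∈ zM p k A δ M := by
  refine ⟨3 - 8 * t, ⟨by linarith, by linarith [Nat.cast_nonneg (α := ℝ) M]⟩, ?_⟩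
  unfold pl
  rw [lin_first (by linarith), cpt_L]
  congr 2 <;> ring

theorem bt_zM {u : ℂ} (hu : u ∈ Bt (cs p)) : u ∈ zM p k A δ M := by
  obtain ⟨t, h1, h2, rfl⟩ := bt_L hu
  exact L_zM h1 h2

section

variable (hp : IsPolygon p) (hS : Encloses p S) (hk : k + 1 < n) (hA : A ⊆ edges S)
include hp hS hk hA

/-- A segment which meets no obstacle. -/
theorem seg0 (hδ : 0 < δ) (hM : M ≤ len p k A) {y : ℂ} (hw : w ∈ sD1 p k S A δ M)
    (hO : segment ℝ w y ⊆ O1 (S : Set (ℤ × ℤ)))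
    (h : ∀ u ∈ segment ℝ w y, u ≠ w → (∀ i < M, u ∉ Lseg (run p k A i) (run p k A (i + 1))) ∧
      u ∉ Bt (cs p) ∧ u ≠ cpt (1 / 4) (run p k A M)) : segment ℝ w y ⊆ sD1 p k S A δ M := by
  intro u hu
  refine ⟨hO hu, fun hz => ?_⟩
  by_cases hne : u = w
  · rw [hne] at hz
    exact hw.2 hz
  obtain ⟨h1, h2, h3⟩ := h u hu hne
  rcases (obs (S := S) hp hS hA hδ hM).cov _ hz with ⟨x, y', a1, a2⟩ | ⟨d, a1, a2⟩ | ⟨d, a1, a2⟩
  · obtain ⟨i, hi, rfl, rfl⟩ := a1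
    exact h1 i hi a2
  · rw [a1] at a2
    exact h2 a2
  · rw [a1] at a2
    exact h3 a2

/-- Across a horizontal edge which is not in the domain. -/
theorem free_h (hδ : 0 < δ) (hM : M ≤ len p k A) {a b : ℤ} (he : s((a, b), (a + 1, b)) ∉ edges S)
    {u : ℂ} (h1 : 2 * (a : ℝ) < 2 * u.re - 1 / 2) (h2 : 2 * u.re - 1 / 2 < 2 * a + 1)
    (h3 : 2 * (b : ℝ) - 2 < 2 * u.im - 1 / 2) (h4 : 2 * u.im - 1 / 2 < 2 * b + 1) :
    ∀ i < M, u ∉ Lseg (run p k A i) (run p k A (i + 1)) := by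
  intro i hi hL
  obtain ⟨e, he'⟩ := (obs (S := S) hp hS hA hδ hM).step _ _ ⟨i, hi, rfl, rfl⟩
  obtain ⟨l, e3, e4⟩ := on_h (m := 2 * a) he' hL (by push_cast; exact h1) (by push_cast; exact h2)
  rw [e3] at h3 h4
  have b1 : 2 * b - 2 < l := by exact_mod_cast h3
  have b2 : l < 2 * b + 1 := by exact_mod_cast h4
  rcases (show l = 2 * b ∨ l = 2 * b - 1 by omega) with rfl | rfl
  · refine fside hp hS hk hA hi (x := ((a, b), 0)) (y := ((a + 1, b), 1)) (by simp) he ?_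
    rw [hl_0, hl_1]
    convert e4 using 4 <;> simp <;> ring
  · refine fside hp hS hk hA hi (x := ((a, b), 3)) (y := ((a + 1, b), 2)) (by simp) he ?_
    rw [hl_3, hl_2]
    convert e4 using 4 <;> simp <;> ring

/-- Across a vertical edge which is not in the domain. -/
theorem free_v (hδ : 0 < δ) (hM : M ≤ len p k A) {a b : ℤ} (he : s((a, b), (a, b + 1)) ∉ edges S)
    {u : ℂ} (h1 : 2 * (a : ℝ) - 2 < 2 * u.re - 1 / 2) (h2 : 2 * u.re - 1 / 2 < 2 * a + 1)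
    (h3 : 2 * (b : ℝ) < 2 * u.im - 1 / 2) (h4 : 2 * u.im - 1 / 2 < 2 * b + 1) :
    ∀ i < M, u ∉ Lseg (run p k A i) (run p k A (i + 1)) := by
  intro i hi hL
  obtain ⟨e, he'⟩ := (obs (S := S) hp hS hA hδ hM).step _ _ ⟨i, hi, rfl, rfl⟩
  obtain ⟨m, e3, e4⟩ := on_v (l := 2 * b) he' hL (by push_cast; exact h3) (by push_cast; exact h4)
  rw [e3] at h1 h2
  have b1 : 2 * a - 2 < m := by exact_mod_cast h1
  have b2 : m < 2 * a + 1 := by exact_mod_cast h2
  rcases (show m = 2 * a ∨ m = 2 * a - 1 by omega) with rfl | rfl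
  · refine fside hp hS hk hA hi (x := ((a, b), 0)) (y := ((a, b + 1), 3)) (by simp) he ?_
    rw [hl_0, hl_3]
    convert e4 using 4 <;> simp <;> ring
  · refine fside hp hS hk hA hi (x := ((a, b), 1)) (y := ((a, b + 1), 2)) (by simp) he ?_
    rw [hl_1, hl_2]
    convert e4 using 4 <;> simp <;> ring

/-- Across the edge `dir c.2` of a dart. -/
theorem free_L (hδ : 0 < δ) (hM : M ≤ len p k A) {c : Medial}
    (he : s(c.1, c.1 + dir c.2) ∉ edges S) {X Y : ℝ} (h1 : -3 / 4 < X) (h2 : X < 3 / 4)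
    (h3 : 1 / 4 < Y) (h4 : Y < 3 / 4) :
    ∀ i < M, L c X Y ∉ Lseg (run p k A i) (run p k A (i + 1)) := by
  obtain ⟨⟨a, b⟩, r⟩ := c
  revert r
  refine forall4 ?_ ?_ ?_ ?_ <;> intro he <;> simp only [dir0, dir1, dir2, dir3] at he
  · refine free_h hp hS hk hA hδ hM (a := a) (b := b) (by simpa using he) ?_ ?_ ?_ ?_ <;>
      simp only [L_0] <;> linarith
  · refine free_v hp hS hk hA hδ hM (a := a) (b := b) (by simpa using he) ?_ ?_ ?_ ?_ <;>
      simp only [L_1] <;> linarith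
  · refine free_h hp hS hk hA hδ hM (a := a - 1) (b := b) ?_ ?_ ?_ ?_ ?_
    · rw [Sym2.eq_swap]
      simpa [sub_eq_add_neg] using he
    all_goals simp only [L_2]; push_cast; linarith
  · refine free_v hp hS hk hA hδ hM (a := a) (b := b - 1) ?_ ?_ ?_ ?_ ?_
    · rw [Sym2.eq_swap]
      simpa [sub_eq_add_neg] using he
    all_goals simp only [L_3]; push_cast; linarith

omit hp hS hk hA in
/-- The segments avoid the first segment of the path. -/
theorem nbt (hw : w ∈ sD1 p k S A δ M) {X Y X' Y' : ℝ} (hX : w = L (cs p) X Y)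
    (hb : (X ≤ Y ∧ X' < Y') ∨ (Y ≤ X ∧ Y' < X') ∨ (3 / 8 ≤ Y ∧ 3 / 8 < Y') ∨
      (3 / 8 ≤ X ∧ 3 / 8 < X')) : ∀ u ∈ segment ℝ w (L (cs p) X' Y'), u ∉ Bt (cs p) := by
  intro u hu hb'
  by_cases hne : u = w
  · rw [hne] at hb'
    exact hw.2 (bt_zM hb')
  rw [hX] at hu hne
  obtain ⟨s, h0, h1, e⟩ := seg_L hu hne
  obtain ⟨t, t1, t2, e'⟩ := bt_L hb'
  rw [e] at e'
  obtain ⟨g1, g2⟩ := L_inj e'
  rcases hb with ⟨a, b⟩ | ⟨a, b⟩ | ⟨a, b⟩ | ⟨a, b⟩
  · nlinarith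
  · nlinarith
  · nlinarith
  · nlinarith

omit hp hS hk hA in
theorem c14_ne {c d : Medial} {X Y : ℝ} (h3 : 1 / 4 < Y) (h4 : Y < 3 / 4) :
    L c X Y ≠ cpt (1 / 4) d := by
  intro h
  have e1 : 2 * (L c X Y).re - 1 / 2 = (E2.hl d).1 := by rw [h, c14_re]; ring
  have e2 : 2 * (L c X Y).im - 1 / 2 = (E2.hl d).2 := by rw [h, c14_im]; ring
  clear h
  obtain ⟨x, hx⟩ : ∃ x, x = E2.hl d := ⟨_, rfl⟩
  rw [← hx] at e1 e2
  obtain ⟨⟨a, b⟩, r⟩ := c
  revert r
  refine forall4 ?_ ?_ ?_ ?_ <;> simp only [L_0, L_1, L_2, L_3] <;> intro e1 e2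
  · have b1 : 2 * a < x.1 := by
      have : ((2 * a : ℤ) : ℝ) < x.1 := by push_cast; linarith
      exact_mod_cast this
    have b2 : x.1 < 2 * a + 1 := by
      have : (x.1 : ℝ) < ((2 * a + 1 : ℤ) : ℝ) := by push_cast; linarith
      exact_mod_cast this
    omega
  · have b1 : 2 * b < x.2 := by
      have : ((2 * b : ℤ) : ℝ) < x.2 := by push_cast; linarith
      exact_mod_cast this
    have b2 : x.2 < 2 * b + 1 := by
      have : (x.2 : ℝ) < ((2 * b + 1 : ℤ) : ℝ) := by push_cast; linarith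
      exact_mod_cast this
    omega
  · have b1 : 2 * a - 2 < x.1 := by
      have : ((2 * a - 2 : ℤ) : ℝ) < x.1 := by push_cast; linarith
      exact_mod_cast this
    have b2 : x.1 < 2 * a - 1 := by
      have : (x.1 : ℝ) < ((2 * a - 1 : ℤ) : ℝ) := by push_cast; linarith
      exact_mod_cast this
    omega
  · have b1 : 2 * b - 2 < x.2 := by
      have : ((2 * b - 2 : ℤ) : ℝ) < x.2 := by push_cast; linarith
      exact_mod_cast this
    have b2 : x.2 < 2 * b - 1 := by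
      have : (x.2 : ℝ) < ((2 * b - 1 : ℤ) : ℝ) := by push_cast; linarith
      exact_mod_cast this
    omega

/-- A segment across the edge `dir c.2` of the first dart, which is not in the domain. -/
theorem LLs (hδ : 0 < δ) (hM : M ≤ len p k A) (hw : w ∈ sD1 p k S A δ M)
    (he : s((cs p).1, (cs p).1 + dir (cs p).2) ∉ edges S) {X Y X' Y' : ℝ}
    (hX : w = L (cs p) X Y) {f : ℤ × ℤ} (hf : f ∈ S) (hwf : w ∈ EF f)
    (hyf : L (cs p) X' Y' ∈ EF f) (x1 : -3 / 4 < X) (x2 : X < 3 / 4) (x3 : -3 / 4 < X')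
    (x4 : X' < 3 / 4) (y1 : 1 / 4 ≤ Y) (y2 : Y ≤ 3 / 4) (y3 : 1 / 4 < Y') (y4 : Y' < 3 / 4)
    (hb : (X ≤ Y ∧ X' < Y') ∨ (Y ≤ X ∧ Y' < X') ∨ (3 / 8 ≤ Y ∧ 3 / 8 < Y') ∨
      (3 / 8 ≤ X ∧ 3 / 8 < X')) :
    segment ℝ w (L (cs p) X' Y') ⊆ sD1 p k S A δ M := by
  refine seg0 hp hS hk hA hδ hM hw (seg_O1 hf hwf hyf) fun u hu hne => ?_
  have hb' := nbt hw hX hb u hu
  rw [hX] at hu hne
  obtain ⟨s, h0, h1, rfl⟩ := seg_L hu hne
  have g1 := cnv_lt h0 h1 y1 y3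
  have g2 := cnv_gt h0 h1 y2 y4
  exact ⟨free_L hp hS hk hA hδ hM he (cnv_lt h0 h1 x1.le x3) (cnv_gt h0 h1 x2.le x4) g1 g2, hb',
    c14_ne g1 g2⟩

omit hp hS hk hA in
theorem L_near {c : Medial} {X Y X' Y' : ℝ} (h1 : |X' - X| ≤ 1) (h2 : |Y' - Y| ≤ 1) :
    |(L c X' Y').re - (L c X Y).re| ≤ 1 ∧ |(L c X' Y').im - (L c X Y).im| ≤ 1 := by
  obtain ⟨v, r⟩ := c
  rw [abs_le] at *
  rw [abs_le]
  revert r
  refine forall4 ?_ ?_ ?_ ?_ <;> simp only [L_0, L_1, L_2, L_3] <;>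
    refine ⟨⟨?_, ?_⟩, ?_, ?_⟩ <;> linarith

omit hk hA in
/-- The faces around the first dart. -/
theorem top_mem : fl (cs p) 0 (-1) ∈ S := by
  rw [fl_top]
  have h := (enc_out hp hS (i := -1)).1
  show face (p (-1)) (ro p (-1) - 1 + 1) ∈ S
  rw [sub_add_cancel]
  exact h

omit hk hA in
theorem top_vert : (cs p).1 ∈ verts S :=
  mem_verts.2 ⟨(cs p).2 + 1, by rw [← fl_top]; exact top_mem hp hS⟩

omit hk hA in
theorem g_nmem : fl (cs p) 0 0 ∉ S := by
  rw [fl_zero]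
  exact fc_cs hp hS

omit hk hA in
theorem left_iff : fl (cs p) (-1) 0 ∈ S ↔ s((cs p).1, (cs p).1 + dir (cs p).2) ∈ edges S := by
  rw [mem_edges, fl_left]
  constructor
  · exact Or.inr
  · rintro (h | h)
    · exact absurd h (fc_cs hp hS)
    · exact h

omit hp hS hk hA in
theorem EF_ij {c : Medial} {i j : ℤ} {X Y : ℝ} (h : L c X Y ∈ EF (fl c i j)) {x x' y y' : ℤ}
    (h1 : (x : ℝ) - 5 / 8 ≤ X) (h2 : X ≤ x' + 5 / 8) (h3 : (y : ℝ) - 5 / 8 ≤ Y)
    (h4 : Y ≤ y' + 5 / 8) : (x - 2 < i ∧ i < x' + 2) ∧ y - 2 < j ∧ j < y' + 2 := by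
  obtain ⟨⟨a1, a2⟩, a3, a4⟩ := (EF_L c i j X Y).1 h
  refine ⟨⟨?_, ?_⟩, ?_, ?_⟩
  · have : ((x - 2 : ℤ) : ℝ) < i := by push_cast; linarith
    exact_mod_cast this
  · have : (i : ℝ) < ((x' + 2 : ℤ) : ℝ) := by push_cast; linarith
    exact_mod_cast this
  · have : ((y - 2 : ℤ) : ℝ) < j := by push_cast; linarith
    exact_mod_cast this
  · have : (j : ℝ) < ((y' + 2 : ℤ) : ℝ) := by push_cast; linarith
    exact_mod_cast this

/-- The cell of the edge `dir c.2` of the first dart, if the edge is not in the domain. -/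
theorem edge_cell (hδ : 0 < δ) (hM : M ≤ len p k A) (hw : w ∈ sD1 p k S A δ M)
    (he : s((cs p).1, (cs p).1 + dir (cs p).2) ∉ edges S) {f : ℤ × ℤ} (hf : f ∈ S)
    (hwf : w ∈ EF f) {X Y : ℝ} (hX : w = L (cs p) X Y) (x1 : -1 / 4 ≤ X) (x2 : X ≤ 1 / 4)
    (y1 : 1 / 4 ≤ Y) (y2 : Y ≤ 3 / 4) :
    ∃ a, Good S a ∧ JoinedIn (sD1 p k S A δ M ∩ closedBall w 2) w (ps a) := by
  obtain ⟨i, j, rfl⟩ := fl_ex (cs p) f
  have hwf' := hwf
  rw [hX] at hwf'
  obtain ⟨⟨a1, a2⟩, a3, a4⟩ := (EF_L _ i j X Y).1 hwf'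
  obtain ⟨⟨b1, b2⟩, b3, b4⟩ := EF_ij hwf' (x := 0) (x' := 0) (y := 0) (y' := 1)
    (by push_cast; linarith) (by push_cast; linarith) (by push_cast; linarith)
    (by push_cast; linarith)
  have hi1 : i ≠ 1 := by
    rintro rfl
    push_cast at a1
    linarith
  have hj2 : j ≠ 2 := by
    rintro rfl
    push_cast at a3
    linarith
  have hi : i = -1 ∨ i = 0 := by omega
  have hj0 : j ≠ 0 := by
    rintro rfl
    rcases hi with rfl | rfl
    · exact he ((left_iff hp hS).1 hf)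
    · exact g_nmem hp hS hf
  rcases (show j = -1 ∨ j = 1 by omega) with rfl | rfl
  · -- to the left dart
    push_cast at a3 a4
    have hg : Good S (.O (d4 (cs p))) := ⟨top_vert hp hS, by
      show fc (d4 (cs p)) ∉ S
      rw [(cpt_d4 _).2, ← fl_left, left_iff hp hS]
      exact he⟩
    have hn := L_near (c := cs p) (X := X) (Y := Y) (X' := -5 / 16) (Y' := 5 / 16)
      (by rw [abs_le]; constructor <;> linarith) (by rw [abs_le]; constructor <;> linarith)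
    rw [← hX] at hn
    refine nn_one (y := L (cs p) (-5 / 16) (5 / 16)) hg (cpt_d4 _).1.symm hn.1 hn.2
      (LLs hp hS hk hA hδ hM hw he hX hf hwf ?_ (by linarith) (by linarith) (by norm_num)
        (by norm_num) y1 y2 (by norm_num) (by norm_num) (Or.inl ⟨by linarith, by norm_num⟩))
    rw [EF_L]
    rcases hi with rfl | rfl <;> push_cast <;> norm_num
  · push_cast at a3 a4
    have hg : Good S (.O (d2 (cs p))) := ⟨v2_verts (by
      rcases hi with rfl | rfl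
      · exact Or.inr (Or.inl hf)
      · exact Or.inr (Or.inr hf)), by
      show fc (d2 (cs p)) ∉ S
      rw [(cpt_d2 _).2]
      exact fc_cs hp hS⟩
    have hn := L_near (c := cs p) (X := X) (Y := Y) (X' := 5 / 16) (Y' := 11 / 16)
      (by rw [abs_le]; constructor <;> linarith) (by rw [abs_le]; constructor <;> linarith)
    rw [← hX] at hn
    refine nn_one (y := L (cs p) (5 / 16) (11 / 16)) hg (cpt_d2 _).1.symm hn.1 hn.2
      (LLs hp hS hk hA hδ hM hw he hX hf hwf ?_ (by linarith) (by linarith) (by norm_num)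
        (by norm_num) y1 y2 (by norm_num) (by norm_num)
        (Or.inr (Or.inr (Or.inl ⟨by linarith, by norm_num⟩))))
    rw [EF_L]
    rcases hi with rfl | rfl <;> push_cast <;> norm_num

/-- The cell of the face of the first dart. -/
theorem face_cell (hδ : 0 < δ) (hM : M ≤ len p k A) (hw : w ∈ sD1 p k S A δ M)
    {f : ℤ × ℤ} (hf : f ∈ S) (hwf : w ∈ EF f) {X Y : ℝ} (hX : w = L (cs p) X Y)
    (x1 : 1 / 4 ≤ X) (x2 : X ≤ 3 / 4) (y1 : 1 / 4 ≤ Y) (y2 : Y ≤ 3 / 4) :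
    ∃ a, Good S a ∧ JoinedIn (sD1 p k S A δ M ∩ closedBall w 2) w (ps a) := by
  have hc : Cc (2 * (fc (cs p)).1) (2 * (fc (cs p)).2) w := by
    rw [hX, Cc_L]
    exact ⟨⟨x1, x2⟩, y1, y2⟩
  have go : ∀ {d : Medial} {X' Y' : ℝ} {f' : ℤ × ℤ}, d.1 ∈ verts S → fc d = fc (cs p) →
      cpt (5 / 16) d = L (cs p) X' Y' → 1 / 4 < X' → X' < 3 / 4 → 1 / 4 < Y' → Y' < 3 / 4 →
      f' ∈ S → w ∈ EF f' → L (cs p) X' Y' ∈ EF f' →
      ((X ≤ Y ∧ X' < Y') ∨ (Y ≤ X ∧ Y' < X') ∨ (3 / 8 ≤ Y ∧ 3 / 8 < Y') ∨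
        (3 / 8 ≤ X ∧ 3 / 8 < X')) →
      ∃ a, Good S a ∧ JoinedIn (sD1 p k S A δ M ∩ closedBall w 2) w (ps a) := by
    intro d X' Y' f' q1 q2 q3 q4 q5 q6 q7 q8 q9 q10 q11
    have hn := L_near (c := cs p) (X := X) (Y := Y) (X' := X') (Y' := Y')
      (by rw [abs_le]; constructor <;> linarith) (by rw [abs_le]; constructor <;> linarith)
    rw [← hX] at hn
    refine nn_one (a := .O d) (y := L (cs p) X' Y') ⟨q1, by show fc d ∉ S; rw [q2]; exact fc_cs hp hS⟩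
      q3.symm hn.1 hn.2 (cell_seg hp hS hk hA hδ hM hw (nbt hw hX q11) hc ?_ q8 q9 q10)
    rw [Co_L]
    exact ⟨⟨q4, q5⟩, q6, q7⟩
  by_cases hY : Y < 3 / 8
  · have hwt : w ∈ EF (fl (cs p) 0 (-1)) := by
      rw [hX, EF_L]
      push_cast
      refine ⟨⟨?_, ?_⟩, ?_, ?_⟩ <;> linarith
    rcases lt_trichotomy X Y with h | h | h
    · by_cases hl : fl (cs p) (-1) 0 ∈ S
      · refine go (v2_verts (Or.inl hl)) (cpt_d2 _).2 (cpt_d2 _).1 (by norm_num) (by norm_num)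
          (by norm_num) (by norm_num) hl ?_ ?_ (Or.inl ⟨h.le, by norm_num⟩)
        · rw [hX, EF_L]
          push_cast
          refine ⟨⟨?_, ?_⟩, ?_, ?_⟩ <;> linarith
        · rw [EF_L]
          push_cast
          norm_num
      · have he : s((cs p).1, (cs p).1 + dir (cs p).2) ∉ edges S :=
          fun h => hl ((left_iff hp hS).2 h)
        have hg : Good S (.O (d4 (cs p))) := ⟨top_vert hp hS, by
          show fc (d4 (cs p)) ∉ S
          rw [(cpt_d4 _).2, ← fl_left]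
          exact hl⟩
        have hn := L_near (c := cs p) (X := X) (Y := Y) (X' := -5 / 16) (Y' := 5 / 16)
          (by rw [abs_le]; constructor <;> linarith) (by rw [abs_le]; constructor <;> linarith)
        rw [← hX] at hn
        refine nn_one (y := L (cs p) (-5 / 16) (5 / 16)) hg (cpt_d4 _).1.symm hn.1 hn.2
          (LLs hp hS hk hA hδ hM hw he hX (top_mem hp hS) hwt ?_ (by linarith) (by linarith)
            (by norm_num) (by norm_num) y1 y2 (by norm_num) (by norm_num)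
            (Or.inl ⟨by linarith, by norm_num⟩))
        rw [EF_L]
        push_cast
        norm_num
    · exfalso
      subst h
      refine hw.2 ?_
      rw [hX]
      exact L_zM y1 hY.le
    · refine go (v1_verts (top_mem hp hS)) (cpt_d1 _).2 (cpt_d1 _).1 (by norm_num) (by norm_num)
        (by norm_num) (by norm_num) (top_mem hp hS) hwt ?_
        (Or.inr (Or.inl ⟨h.le, by norm_num⟩))
      rw [EF_L]
      push_cast
      norm_num
  · rw [not_lt] at hY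
    obtain ⟨i, j, rfl⟩ := fl_ex (cs p) f
    have hwf' := hwf
    rw [hX] at hwf'
    obtain ⟨⟨a1, a2⟩, a3, a4⟩ := (EF_L _ i j X Y).1 hwf'
    obtain ⟨⟨b1, b2⟩, b3, b4⟩ := EF_ij hwf' (x := 0) (x' := 1) (y := 0) (y' := 1)
      (by push_cast; linarith) (by push_cast; linarith) (by push_cast; linarith)
      (by push_cast; linarith)
    have hi2 : i ≠ 2 := by
      rintro rfl
      push_cast at a1
      linarith
    have hj2 : j ≠ 2 := by
      rintro rfl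
      push_cast at a3
      linarith
    have hjm : j ≠ -1 := by
      rintro rfl
      push_cast at a4
      linarith
    have hj : j = 0 ∨ j = 1 := by omega
    rcases (show i = -1 ∨ i = 0 ∨ i = 1 by omega) with rfl | rfl | rfl
    · refine go (f' := fl (cs p) (-1) j) (v2_verts ?_) (cpt_d2 _).2 (cpt_d2 _).1 (by norm_num)
        (by norm_num) (by norm_num) (by norm_num) hf hwf ?_
        (Or.inl ⟨by push_cast at a2; linarith, by norm_num⟩)
      · rcases hj with rfl | rfl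
        · exact Or.inl hf
        · exact Or.inr (Or.inl hf)
      · rw [EF_L]
        rcases hj with rfl | rfl <;> push_cast <;> norm_num
    · have hj1 : j = 1 := by
        rcases hj with rfl | rfl
        · exact absurd hf (g_nmem hp hS)
        · rfl
      subst hj1
      refine go (f' := fl (cs p) 0 1) (v3_verts (Or.inl hf)) (cpt_d3 _).2 (cpt_d3 _).1 (by norm_num)
        (by norm_num) (by norm_num) (by norm_num) hf hwf ?_
        (Or.inr (Or.inr (Or.inl ⟨hY, by norm_num⟩)))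
      rw [EF_L]
      push_cast
      norm_num
    · refine go (f' := fl (cs p) 1 j) (v3_verts ?_) (cpt_d3 _).2 (cpt_d3 _).1 (by norm_num)
        (by norm_num) (by norm_num) (by norm_num) hf hwf ?_
        (Or.inr (Or.inr (Or.inl ⟨hY, by norm_num⟩)))
      · rcases hj with rfl | rfl
        · exact Or.inr (Or.inr hf)
        · exact Or.inr (Or.inl hf)
      · rw [EF_L]
        rcases hj with rfl | rfl <;> push_cast <;> norm_num

omit hp hS hk hA in
/-- In a cell which is not the cell of the face of the first dart there is no obstacle of the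
start. -/
theorem hBc (hw : w ∈ sD1 p k S A δ M) {y : ℂ} {m l : ℤ} (hc : Cc m l w) (ho : Co m l y)
    (hne : m = 2 * (fc (cs p)).1 → l = 2 * (fc (cs p)).2 → False) :
    ∀ u ∈ segment ℝ w y, u ∉ Bt (cs p) := by
  intro u hu hb
  by_cases hn : u = w
  · rw [hn] at hb
    exact hw.2 (bt_zM hb)
  obtain ⟨s, h0, h1, e1, e2⟩ := seg_pos hu hn
  obtain ⟨⟨c1, c2⟩, c3, c4⟩ := hc
  obtain ⟨⟨o1, o2⟩, o3, o4⟩ := ho
  have i1 : (m : ℝ) < 2 * u.re - 1 / 2 := by
    have := cnv_lt h0 h1 c1 o1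
    rw [e1]; linarith
  have i2 : 2 * u.re - 1 / 2 < m + 1 := by
    have := cnv_gt h0 h1 c2 o2
    rw [e1]; linarith
  have i3 : (l : ℝ) < 2 * u.im - 1 / 2 := by
    have := cnv_lt h0 h1 c3 o3
    rw [e2]; linarith
  have i4 : 2 * u.im - 1 / 2 < l + 1 := by
    have := cnv_gt h0 h1 c4 o4
    rw [e2]; linarith
  obtain ⟨t, t1, t2, rfl⟩ := bt_L hb
  obtain ⟨⟨g1, g2⟩, g3, g4⟩ := (Cc_L (cs p) t t).2 ⟨⟨t1, by linarith⟩, t1, by linarith⟩
  push_cast at g1 g2 g3 g4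
  have b1 : m < 2 * (fc (cs p)).1 + 1 := by
    have : (m : ℝ) < ((2 * (fc (cs p)).1 + 1 : ℤ) : ℝ) := by push_cast; linarith
    exact_mod_cast this
  have b2 : 2 * (fc (cs p)).1 < m + 1 := by
    have : ((2 * (fc (cs p)).1 : ℤ) : ℝ) < ((m + 1 : ℤ) : ℝ) := by push_cast; linarith
    exact_mod_cast this
  have b3 : l < 2 * (fc (cs p)).2 + 1 := by
    have : (l : ℝ) < ((2 * (fc (cs p)).2 + 1 : ℤ) : ℝ) := by push_cast; linarith
    exact_mod_cast this
  have b4 : 2 * (fc (cs p)).2 < l + 1 := by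
    have : ((2 * (fc (cs p)).2 : ℤ) : ℝ) < ((l + 1 : ℤ) : ℝ) := by push_cast; linarith
    exact_mod_cast this
  exact hne (by omega) (by omega)

omit hp hS hk hA in
/-- The same for a cell and the cell above it. -/
theorem hBu (hw : w ∈ sD1 p k S A δ M) {y : ℂ} {a b : ℤ} (hc : Cc (2 * a) (2 * b - 1) w)
    (ho : Co (2 * a) (2 * b - 1 + 1) y) (hne : (a, b) ≠ fc (cs p)) :
    ∀ u ∈ segment ℝ w y, u ∉ Bt (cs p) := by
  intro u hu hb
  by_cases hn : u = w
  · rw [hn] at hb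
    exact hw.2 (bt_zM hb)
  obtain ⟨s, h0, h1, e1, e2⟩ := seg_pos hu hn
  obtain ⟨⟨c1, c2⟩, c3, c4⟩ := hc
  obtain ⟨⟨o1, o2⟩, o3, o4⟩ := ho
  push_cast at c1 c2 c3 c4 o1 o2 o3 o4
  have i1 : 2 * (a : ℝ) < 2 * u.re - 1 / 2 := by
    have := cnv_lt h0 h1 c1 o1
    rw [e1]; linarith
  have i2 : 2 * u.re - 1 / 2 < 2 * a + 1 := by
    have := cnv_gt h0 h1 c2 o2
    rw [e1]; linarith
  have i3 : 2 * (b : ℝ) - 1 < 2 * u.im - 1 / 2 := by
    have := cnv_lt h0 h1 c3 (show 2 * (b : ℝ) - 1 < 2 * y.im - 1 / 2 by linarith)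
    rw [e2]; linarith
  have i4 : 2 * u.im - 1 / 2 < 2 * b + 1 := by
    have := cnv_gt h0 h1 (show 2 * w.im - 1 / 2 ≤ 2 * (b : ℝ) + 1 by linarith)
      (show 2 * y.im - 1 / 2 < 2 * (b : ℝ) + 1 by linarith)
    rw [e2]; linarith
  obtain ⟨t, t1, t2, rfl⟩ := bt_L hb
  obtain ⟨⟨g1, g2⟩, g3, g4⟩ := (Cc_L (cs p) t t).2 ⟨⟨t1, by linarith⟩, t1, by linarith⟩
  push_cast at g1 g2 g3 g4
  have b1 : a < (fc (cs p)).1 + 1 := by
    have : (a : ℝ) < (((fc (cs p)).1 + 1 : ℤ) : ℝ) := by push_cast; linarith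
    exact_mod_cast this
  have b2 : (fc (cs p)).1 < a + 1 := by
    have : (((fc (cs p)).1 : ℤ) : ℝ) < ((a + 1 : ℤ) : ℝ) := by push_cast; linarith
    exact_mod_cast this
  have b3 : b < (fc (cs p)).2 + 1 := by
    have : (b : ℝ) < (((fc (cs p)).2 + 1 : ℤ) : ℝ) := by push_cast; linarith
    exact_mod_cast this
  have b4 : (fc (cs p)).2 < b + 1 := by
    have : (((fc (cs p)).2 : ℤ) : ℝ) < ((b + 1 : ℤ) : ℝ) := by push_cast; linarith
    exact_mod_cast this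
  exact hne (Prod.ext (by show a = _; omega) (by show b = _; omega))

omit hp hS hk hA in
/-- The same for a cell and the cell on its right. -/
theorem hBr (hw : w ∈ sD1 p k S A δ M) {y : ℂ} {a b : ℤ} (hc : Cc (2 * a - 1) (2 * b) w)
    (ho : Co (2 * a - 1 + 1) (2 * b) y) (hne : (a, b) ≠ fc (cs p)) :
    ∀ u ∈ segment ℝ w y, u ∉ Bt (cs p) := by
  intro u hu hb
  by_cases hn : u = w
  · rw [hn] at hb
    exact hw.2 (bt_zM hb)
  obtain ⟨s, h0, h1, e1, e2⟩ := seg_pos hu hn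
  obtain ⟨⟨c1, c2⟩, c3, c4⟩ := hc
  obtain ⟨⟨o1, o2⟩, o3, o4⟩ := ho
  push_cast at c1 c2 c3 c4 o1 o2 o3 o4
  have i1 : 2 * (a : ℝ) - 1 < 2 * u.re - 1 / 2 := by
    have := cnv_lt h0 h1 c1 (show 2 * (a : ℝ) - 1 < 2 * y.re - 1 / 2 by linarith)
    rw [e1]; linarith
  have i2 : 2 * u.re - 1 / 2 < 2 * a + 1 := by
    have := cnv_gt h0 h1 (show 2 * w.re - 1 / 2 ≤ 2 * (a : ℝ) + 1 by linarith)
      (show 2 * y.re - 1 / 2 < 2 * (a : ℝ) + 1 by linarith)
    rw [e1]; linarith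
  have i3 : 2 * (b : ℝ) < 2 * u.im - 1 / 2 := by
    have := cnv_lt h0 h1 c3 o3
    rw [e2]; linarith
  have i4 : 2 * u.im - 1 / 2 < 2 * b + 1 := by
    have := cnv_gt h0 h1 c4 o4
    rw [e2]; linarith
  obtain ⟨t, t1, t2, rfl⟩ := bt_L hb
  obtain ⟨⟨g1, g2⟩, g3, g4⟩ := (Cc_L (cs p) t t).2 ⟨⟨t1, by linarith⟩, t1, by linarith⟩
  push_cast at g1 g2 g3 g4
  have b1 : a < (fc (cs p)).1 + 1 := by
    have : (a : ℝ) < (((fc (cs p)).1 + 1 : ℤ) : ℝ) := by push_cast; linarith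
    exact_mod_cast this
  have b2 : (fc (cs p)).1 < a + 1 := by
    have : (((fc (cs p)).1 : ℤ) : ℝ) < ((a + 1 : ℤ) : ℝ) := by push_cast; linarith
    exact_mod_cast this
  have b3 : b < (fc (cs p)).2 + 1 := by
    have : (b : ℝ) < (((fc (cs p)).2 + 1 : ℤ) : ℝ) := by push_cast; linarith
    exact_mod_cast this
  have b4 : (fc (cs p)).2 < b + 1 := by
    have : (((fc (cs p)).2 : ℤ) : ℝ) < ((b + 1 : ℤ) : ℝ) := by push_cast; linarith
    exact_mod_cast this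
  exact hne (Prod.ext (by show a = _; omega) (by show b = _; omega))

/-- The cell of a face. -/
theorem nn_f0 (hδ : 0 < δ) (hM : M ≤ len p k A) (hw : w ∈ sD1 p k S A δ M)
    {f : ℤ × ℤ} (hf : f ∈ S) (hwf : w ∈ EF f) {a b : ℤ}
    (hc : Cc (2 * a) (2 * b) w) (m1 : 2 * (a : ℝ) ≤ 2 * w.re - 1 / 2) (m2 : 2 * w.re - 1 / 2 < 2 * a + 1)
    (l1 : 2 * (b : ℝ) ≤ 2 * w.im - 1 / 2) (l2 : 2 * w.im - 1 / 2 < 2 * b + 1)
    (hne : (a, b) ≠ fc (cs p)) :
    ∃ a, Good S a ∧ JoinedIn (sD1 p k S A δ M ∩ closedBall w 2) w (ps a) := by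
  obtain ⟨⟨f1, f2⟩, f3, f4⟩ := id hwf
  have hwg : w ∈ EF (a, b) := ⟨⟨by show (a : ℝ) - 3 / 8 < _; linarith,
    by show _ < (a : ℝ) + 11 / 8; linarith⟩, by show (b : ℝ) - 3 / 8 < _; linarith,
    by show _ < (b : ℝ) + 11 / 8; linarith⟩
  by_cases hg : (a, b) ∈ S
  · have e1 : |(ctr (a, b)).re - w.re| ≤ 1 := by
      simp only [ctr]; rw [abs_le]; constructor <;> linarith
    have e2 : |(ctr (a, b)).im - w.im| ≤ 1 := by
      simp only [ctr]; rw [abs_le]; constructor <;> linarith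
    have ho : Co (2 * a) (2 * b) (ctr (a, b)) := by
      simp only [Co, ps, ctr]
      push_cast
      refine ⟨⟨?_, ?_⟩, ?_, ?_⟩ <;> linarith
    refine nn_one (a := .F (a, b)) hg rfl e1 e2 (cell_seg hp hS hk hA hδ hM hw
      (hBc hw hc ho fun h h' => hne (Prod.ext (by show a = _; omega) (by show b = _; omega)))
      hc ho hg hwg (ctr_EF _))
  · obtain ⟨v, r, r', hr, hr'⟩ := ef_meet hwf hwg
    have hv : v ∈ verts S := mem_verts.2 ⟨r, by rw [hr]; exact hf⟩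
    have hyf : cpt (5 / 16) (v, r') ∈ EF f := by
      rw [← hr]
      exact cpt_EF (by norm_num) (by norm_num) (v, r') r
    have hgd : Good S (.O (v, r')) := ⟨hv, by show face v r' ∉ S; rw [hr']; exact hg⟩
    have key : ∀ r' : Fin 4, face v r' = (a, b) → Co (2 * a) (2 * b) (cpt (5 / 16) (v, r')) ∧
        |(cpt (5 / 16) (v, r')).re - w.re| ≤ 1 ∧ |(cpt (5 / 16) (v, r')).im - w.im| ≤ 1 := by
      have aux : ∀ {x y : ℤ}, x = y → (x : ℝ) = y := fun h => by rw [h]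
      refine forall4 ?_ ?_ ?_ ?_ <;> intro h <;>
        simp only [face0, face1, face2, face3, Prod.mk.injEq] at h <;>
        have h1 := aux h.1 <;> have h2 := aux h.2 <;> push_cast at h1 h2 <;>
        simp only [cpt_0, cpt_1, cpt_2, cpt_3, Co] <;> push_cast <;>
        refine ⟨⟨⟨?_, ?_⟩, ?_, ?_⟩, abs_le.2 ⟨?_, ?_⟩, abs_le.2 ⟨?_, ?_⟩⟩ <;> linarith
    obtain ⟨k1, k2, k3⟩ := key r' hr'
    exact nn_one hgd rfl k2 k3 (cell_seg hp hS hk hA hδ hM hw
      (hBc hw hc k1 fun h h' => hne (Prod.ext (by show a = _; omega) (by show b = _; omega)))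
      hc k1 hf hwf hyf)

/-- The cell of a horizontal edge. -/
theorem nn_h0 (hδ : 0 < δ) (hM : M ≤ len p k A) (hw : w ∈ sD1 p k S A δ M)
    {f : ℤ × ℤ} (hf : f ∈ S) (hwf : w ∈ EF f) {a b : ℤ}
    (hc : Cc (2 * a) (2 * b - 1) w) (m1 : 2 * (a : ℝ) ≤ 2 * w.re - 1 / 2) (m2 : 2 * w.re - 1 / 2 < 2 * a + 1)
    (l1 : 2 * (b : ℝ) - 1 ≤ 2 * w.im - 1 / 2) (l2 : 2 * w.im - 1 / 2 < 2 * b - 1 + 1)
    (hB : s((a, b), (a + 1, b)) ∉ edges S → ∀ y : ℂ, Co (2 * a) (2 * b - 1 + 1) y →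
      y.im ≤ b + 5 / 16 → ∀ u ∈ segment ℝ w y, u ∉ Bt (cs p)) :
    ∃ a, Good S a ∧ JoinedIn (sD1 p k S A δ M ∩ closedBall w 2) w (ps a) := by
  obtain ⟨⟨f1, f2⟩, f3, f4⟩ := id hwf
  have hah : ahead ((a, b), 3) = s((a, b), (a + 1, b)) := by
    show s((a, b), (a, b) + dir (3 + 1)) = _
    rw [show (3 : Fin 4) + 1 = 0 from rfl]
    simp [dir]
  have hEm : Fjord.em ((a, b), 3) = ⟨a + 1 / 2, b⟩ := by
    apply Complex.ext <;> simp only [Fjord.em, adv_3, pt_re, pt_im] <;> push_cast <;> ring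
  by_cases he : ahead ((a, b), 3) ∈ edges S
  · obtain ⟨g, hg, hg'⟩ := face_of_edge he
    have hg1 : g = (a, b - 1) ∨ g = (a, b) := by
      rcases hg' with h | h
      · left
        rw [h]
        simp only [face3]
      · right
        rw [h, show (3 : Fin 4) + 1 = 0 from rfl]
        simp only [face0]
    have hwg : w ∈ EF g ∧ (⟨a + 1 / 2, b⟩ : ℂ) ∈ EF g := by
      rcases hg1 with rfl | rfl <;> refine ⟨⟨⟨?_, ?_⟩, ?_, ?_⟩, ⟨?_, ?_⟩, ?_, ?_⟩ <;>
        push_cast <;> linarith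
    have e1 : |(Fjord.em ((a, b), 3)).re - w.re| ≤ 1 / 2 := by
      rw [hEm, abs_le]
      simp only
      constructor <;> linarith
    have e2 : |(Fjord.em ((a, b), 3)).im - w.im| ≤ 1 / 2 := by
      rw [hEm, abs_le]
      simp only
      constructor <;> linarith
    have ho : Co (2 * a) (2 * b - 1) (Fjord.em ((a, b), 3)) := by
      rw [hEm]
      simp only [Co]
      push_cast
      refine ⟨⟨?_, ?_⟩, ?_, ?_⟩ <;> linarith
    exact nn_two hp hS hk hA hδ hM _ he e1 e2 (cell_seg hp hS hk hA hδ hM hw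
      (hBc hw hc ho fun h h' => by omega) hc ho hg hwg.1
      (by rw [hEm]; exact hwg.2))
  · have q2 : f.2 = b ∨ f.2 = b - 1 := by
      have : (f.2 : ℝ) < b + 1 := by linarith
      have : f.2 < b + 1 := by exact_mod_cast this
      have : (b : ℝ) < f.2 + 2 := by linarith
      have : b < f.2 + 2 := by exact_mod_cast this
      omega
    have q1 : f.1 = a + 1 ∨ f.1 = a - 1 := by
      have : (f.1 : ℝ) < a + 2 := by linarith
      have g1 : f.1 < a + 2 := by exact_mod_cast this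
      have : (a : ℝ) < f.1 + 2 := by linarith
      have g2 : a < f.1 + 2 := by exact_mod_cast this
      have : f.1 ≠ a := by
        intro h
        apply he
        rw [show ahead ((a, b), 3) = s((a, b), (a, b) + dir 0) from rfl, mem_edges]
        rcases q2 with h' | h'
        · left
          rw [face0]
          rw [← h, ← h']
          exact hf
        · right
          rw [show (0 : Fin 4) - 1 = 3 from rfl, face3]
          rw [← h]
          simp only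
          rw [← h']
          exact hf
      omega
    have hside : ∀ i < M, ¬ ((E2.hl (run p k A i) = (2 * a, 2 * b - 1 + 1) ∧
        E2.hl (run p k A (i + 1)) = (2 * a + 1, 2 * b - 1 + 1)) ∨
        (E2.hl (run p k A (i + 1)) = (2 * a, 2 * b - 1 + 1) ∧
          E2.hl (run p k A i) = (2 * a + 1, 2 * b - 1 + 1))) := by
      intro i hi hh
      refine fside hp hS hk hA hi (x := ((a, b), 0)) (y := ((a + 1, b), 1)) (by simp)
        (by rw [← hah]; exact he) ?_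
      have w1 : E2.hl ((a, b), 0) = (2 * a, 2 * b - 1 + 1) := by
        simp only [E2.hl, fc_0]
        ext <;> simp only [Prod.fst_add, Prod.snd_add] <;> ring
      have w2 : E2.hl ((a + 1, b), 1) = (2 * a + 1, 2 * b - 1 + 1) := by
        simp only [E2.hl, fc_1]
        ext <;> simp only [Prod.fst_add, Prod.snd_add] <;> ring
      rw [w1, w2]
      exact hh
    have fin : ∀ d : Medial, d.1 ∈ verts S → face d.1 d.2 ∉ S → cpt (5 / 16) d ∈ EF f →
        |(cpt (5 / 16) d).re - w.re| ≤ 1 → |(cpt (5 / 16) d).im - w.im| ≤ 1 →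
        Co (2 * a) (2 * b - 1 + 1) (cpt (5 / 16) d) → (cpt (5 / 16) d).im ≤ b + 5 / 16 →
        ∃ a, Good S a ∧ JoinedIn (sD1 p k S A δ M ∩ closedBall w 2) w (ps a) := by
      intro d hd1 hd2 hd3 hd4 hd5 hd6 hd7
      exact nn_one (a := .O d) ⟨hd1, hd2⟩ rfl hd4 hd5
        (cell_up hp hS hk hA hδ hM hw (hB (by rw [← hah]; exact he) _ hd6 hd7) hc hd6 hside
          hf hwf hd3)
    have hnf : (a, b) ∉ S := by
      intro h
      apply he
      rw [show ahead ((a, b), 3) = s((a, b), (a, b) + dir 0) from rfl, mem_edges]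
      left
      rw [face0]
      exact h
    rcases q1 with q1 | q1
    · obtain ⟨t, ht⟩ : ∃ t, face (a + 1, b) t = f := by
        rcases q2 with q2 | q2
        · exact ⟨0, by rw [face0]; exact Prod.ext q1.symm q2.symm⟩
        · exact ⟨3, by rw [face3]; exact Prod.ext q1.symm q2.symm⟩
      have q1' : (f.1 : ℝ) = a + 1 := by rw [q1]; push_cast; ring
      refine fin ((a + 1, b), 1) (mem_verts.2 ⟨t, by rw [ht]; exact hf⟩)
        (by simp only [face1, add_sub_cancel_right]; exact hnf)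
        (by rw [← ht]; exact cpt_EF (by norm_num) (by norm_num) ((a + 1, b), 1) t) ?_ ?_ ?_ ?_ <;>
        simp only [cpt_1, Co] <;> push_cast
      · rw [abs_le]; constructor <;> linarith
      · rw [abs_le]; constructor <;> linarith
      · refine ⟨⟨?_, ?_⟩, ?_, ?_⟩ <;> linarith
      · linarith
    · obtain ⟨t, ht⟩ : ∃ t, face (a, b) t = f := by
        rcases q2 with q2 | q2
        · exact ⟨1, by rw [face1]; exact Prod.ext q1.symm q2.symm⟩
        · exact ⟨2, by rw [face2]; exact Prod.ext q1.symm q2.symm⟩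
      have q1' : (f.1 : ℝ) = a - 1 := by rw [q1]; push_cast; ring
      refine fin ((a, b), 0) (mem_verts.2 ⟨t, by rw [ht]; exact hf⟩)
        (by simp only [face0]; exact hnf)
        (by rw [← ht]; exact cpt_EF (by norm_num) (by norm_num) ((a, b), 0) t) ?_ ?_ ?_ ?_ <;>
        simp only [cpt_0, Co] <;> push_cast
      · rw [abs_le]; constructor <;> linarith
      · rw [abs_le]; constructor <;> linarith
      · refine ⟨⟨?_, ?_⟩, ?_, ?_⟩ <;> linarith
      · linarith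

/-- The cell of a vertical edge. -/
theorem nn_v0 (hδ : 0 < δ) (hM : M ≤ len p k A) (hw : w ∈ sD1 p k S A δ M)
    {f : ℤ × ℤ} (hf : f ∈ S) (hwf : w ∈ EF f) {a b : ℤ}
    (hc : Cc (2 * a - 1) (2 * b) w) (m1 : 2 * (a : ℝ) - 1 ≤ 2 * w.re - 1 / 2) (m2 : 2 * w.re - 1 / 2 < 2 * a - 1 + 1)
    (l1 : 2 * (b : ℝ) ≤ 2 * w.im - 1 / 2) (l2 : 2 * w.im - 1 / 2 < 2 * b + 1)
    (hB : s((a, b), (a, b + 1)) ∉ edges S → ∀ y : ℂ, Co (2 * a - 1 + 1) (2 * b) y →
      y.re ≤ a + 5 / 16 → ∀ u ∈ segment ℝ w y, u ∉ Bt (cs p)) :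
    ∃ a, Good S a ∧ JoinedIn (sD1 p k S A δ M ∩ closedBall w 2) w (ps a) := by
  obtain ⟨⟨f1, f2⟩, f3, f4⟩ := id hwf
  have hah : ahead ((a, b), 0) = s((a, b), (a, b + 1)) := by
    show s((a, b), (a, b) + dir (0 + 1)) = _
    rw [show (0 : Fin 4) + 1 = 1 from rfl]
    simp [dir]
  have hEm : Fjord.em ((a, b), 0) = ⟨a, b + 1 / 2⟩ := by
    apply Complex.ext <;> simp only [Fjord.em, adv_0, pt_re, pt_im] <;> push_cast <;> ring
  by_cases he : ahead ((a, b), 0) ∈ edges S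
  · obtain ⟨g, hg, hg'⟩ := face_of_edge he
    have hg1 : g = (a, b) ∨ g = (a - 1, b) := by
      rcases hg' with h | h
      · left
        rw [h]
        simp only [face0]
      · right
        rw [h, show (0 : Fin 4) + 1 = 1 from rfl]
        simp only [face1]
    have hwg : w ∈ EF g ∧ (⟨a, b + 1 / 2⟩ : ℂ) ∈ EF g := by
      rcases hg1 with rfl | rfl <;> refine ⟨⟨⟨?_, ?_⟩, ?_, ?_⟩, ⟨?_, ?_⟩, ?_, ?_⟩ <;>
        push_cast <;> linarith
    have e1 : |(Fjord.em ((a, b), 0)).re - w.re| ≤ 1 / 2 := by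
      rw [hEm, abs_le]
      simp only
      constructor <;> linarith
    have e2 : |(Fjord.em ((a, b), 0)).im - w.im| ≤ 1 / 2 := by
      rw [hEm, abs_le]
      simp only
      constructor <;> linarith
    have ho : Co (2 * a - 1) (2 * b) (Fjord.em ((a, b), 0)) := by
      rw [hEm]
      simp only [Co]
      push_cast
      refine ⟨⟨?_, ?_⟩, ?_, ?_⟩ <;> linarith
    exact nn_two hp hS hk hA hδ hM _ he e1 e2 (cell_seg hp hS hk hA hδ hM hw
      (hBc hw hc ho fun h h' => by omega) hc ho hg hwg.1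
      (by rw [hEm]; exact hwg.2))
  · have q1 : f.1 = a ∨ f.1 = a - 1 := by
      have : (f.1 : ℝ) < a + 1 := by linarith
      have : f.1 < a + 1 := by exact_mod_cast this
      have : (a : ℝ) < f.1 + 2 := by linarith
      have : a < f.1 + 2 := by exact_mod_cast this
      omega
    have q2 : f.2 = b + 1 ∨ f.2 = b - 1 := by
      have : (f.2 : ℝ) < b + 2 := by linarith
      have g1 : f.2 < b + 2 := by exact_mod_cast this
      have : (b : ℝ) < f.2 + 2 := by linarith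
      have g2 : b < f.2 + 2 := by exact_mod_cast this
      have : f.2 ≠ b := by
        intro h
        apply he
        rw [show ahead ((a, b), 0) = s((a, b), (a, b) + dir 1) from rfl, mem_edges]
        rcases q1 with h' | h'
        · right
          rw [show (1 : Fin 4) - 1 = 0 from rfl, face0]
          rw [← h, ← h']
          exact hf
        · left
          rw [face1]
          rw [← h]
          simp only
          rw [← h']
          exact hf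
      omega
    have hside : ∀ i < M, ¬ ((E2.hl (run p k A i) = (2 * a - 1 + 1, 2 * b) ∧
        E2.hl (run p k A (i + 1)) = (2 * a - 1 + 1, 2 * b + 1)) ∨
        (E2.hl (run p k A (i + 1)) = (2 * a - 1 + 1, 2 * b) ∧
          E2.hl (run p k A i) = (2 * a - 1 + 1, 2 * b + 1))) := by
      intro i hi hh
      refine fside hp hS hk hA hi (x := ((a, b), 0)) (y := ((a, b + 1), 3)) (by simp)
        (by rw [← hah]; exact he) ?_
      have w1 : E2.hl ((a, b), 0) = (2 * a - 1 + 1, 2 * b) := by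
        simp only [E2.hl, fc_0]
        ext <;> simp only [Prod.fst_add, Prod.snd_add] <;> ring
      have w2 : E2.hl ((a, b + 1), 3) = (2 * a - 1 + 1, 2 * b + 1) := by
        simp only [E2.hl, fc_3]
        ext <;> simp only [Prod.fst_add, Prod.snd_add] <;> ring
      rw [w1, w2]
      exact hh
    have fin : ∀ d : Medial, d.1 ∈ verts S → face d.1 d.2 ∉ S → cpt (5 / 16) d ∈ EF f →
        |(cpt (5 / 16) d).re - w.re| ≤ 1 → |(cpt (5 / 16) d).im - w.im| ≤ 1 →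
        Co (2 * a - 1 + 1) (2 * b) (cpt (5 / 16) d) → (cpt (5 / 16) d).re ≤ a + 5 / 16 →
        ∃ a, Good S a ∧ JoinedIn (sD1 p k S A δ M ∩ closedBall w 2) w (ps a) := by
      intro d hd1 hd2 hd3 hd4 hd5 hd6 hd7
      exact nn_one (a := .O d) ⟨hd1, hd2⟩ rfl hd4 hd5
        (cell_rt hp hS hk hA hδ hM hw (hB (by rw [← hah]; exact he) _ hd6 hd7) hc hd6 hside
          hf hwf hd3)
    have hnf : (a, b) ∉ S := by
      intro h
      apply he
      rw [show ahead ((a, b), 0) = s((a, b), (a, b) + dir 1) from rfl, mem_edges]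
      right
      rw [show (1 : Fin 4) - 1 = 0 from rfl, face0]
      exact h
    rcases q2 with q2 | q2
    · obtain ⟨t, ht⟩ : ∃ t, face (a, b + 1) t = f := by
        rcases q1 with q1 | q1
        · exact ⟨0, by rw [face0]; exact Prod.ext q1.symm q2.symm⟩
        · exact ⟨1, by rw [face1]; exact Prod.ext q1.symm q2.symm⟩
      have q2' : (f.2 : ℝ) = b + 1 := by rw [q2]; push_cast; ring
      refine fin ((a, b + 1), 3) (mem_verts.2 ⟨t, by rw [ht]; exact hf⟩)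
        (by simp only [face3, add_sub_cancel_right]; exact hnf)
        (by rw [← ht]; exact cpt_EF (by norm_num) (by norm_num) ((a, b + 1), 3) t) ?_ ?_ ?_ ?_ <;>
        simp only [cpt_3, Co] <;> push_cast
      · rw [abs_le]; constructor <;> linarith
      · rw [abs_le]; constructor <;> linarith
      · refine ⟨⟨?_, ?_⟩, ?_, ?_⟩ <;> linarith
      · linarith
    · obtain ⟨t, ht⟩ : ∃ t, face (a, b) t = f := by
        rcases q1 with q1 | q1
        · exact ⟨3, by rw [face3]; exact Prod.ext q1.symm q2.symm⟩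
        · exact ⟨2, by rw [face2]; exact Prod.ext q1.symm q2.symm⟩
      have q2' : (f.2 : ℝ) = b - 1 := by rw [q2]; push_cast; ring
      refine fin ((a, b), 0) (mem_verts.2 ⟨t, by rw [ht]; exact hf⟩)
        (by simp only [face0]; exact hnf)
        (by rw [← ht]; exact cpt_EF (by norm_num) (by norm_num) ((a, b), 0) t) ?_ ?_ ?_ ?_ <;>
        simp only [cpt_0, Co] <;> push_cast
      · rw [abs_le]; constructor <;> linarith
      · rw [abs_le]; constructor <;> linarith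
      · refine ⟨⟨?_, ?_⟩, ?_, ?_⟩ <;> linarith
      · linarith

/-- The cell of a vertex. -/
theorem nn_x0 (hδ : 0 < δ) (hM : M ≤ len p k A) (hw : w ∈ sD1 p k S A δ M)
    {f : ℤ × ℤ} (hf : f ∈ S) (hwf : w ∈ EF f) {a b : ℤ}
    (hc : Cc (2 * a - 1) (2 * b - 1) w) (m1 : 2 * (a : ℝ) - 1 ≤ 2 * w.re - 1 / 2) (m2 : 2 * w.re - 1 / 2 < 2 * a - 1 + 1)
    (l1 : 2 * (b : ℝ) - 1 ≤ 2 * w.im - 1 / 2) (l2 : 2 * w.im - 1 / 2 < 2 * b - 1 + 1) :
    ∃ a, Good S a ∧ JoinedIn (sD1 p k S A δ M ∩ closedBall w 2) w (ps a) := by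
  obtain ⟨⟨f1, f2⟩, f3, f4⟩ := id hwf
  have hv : ∃ r, face (a, b) r = f := by
    have g1 : f.1 ≤ a := by
      have : (f.1 : ℝ) < a + 5 / 8 := by linarith
      have : (f.1 : ℝ) < a + 1 := by linarith
      have : f.1 < a + 1 := by exact_mod_cast this
      omega
    have g2 : a ≤ f.1 + 1 := by
      have : (a : ℝ) < f.1 + 2 := by linarith
      have : a < f.1 + 2 := by exact_mod_cast this
      omega
    have g3 : f.2 ≤ b := by
      have : (f.2 : ℝ) < b + 1 := by linarith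
      have : f.2 < b + 1 := by exact_mod_cast this
      omega
    have g4 : b ≤ f.2 + 1 := by
      have : (b : ℝ) < f.2 + 2 := by linarith
      have : b < f.2 + 2 := by exact_mod_cast this
      omega
    obtain ⟨x, y⟩ := f
    simp only at g1 g2 g3 g4
    rcases (show x = a ∨ x = a - 1 by omega) with rfl | rfl <;>
      rcases (show y = b ∨ y = b - 1 by omega) with rfl | rfl
    · exact ⟨0, by rw [face0]⟩
    · exact ⟨3, by rw [face3]⟩
    · exact ⟨1, by rw [face1]⟩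
    · exact ⟨2, by rw [face2]⟩
  obtain ⟨r, hr⟩ := hv
  have hv : (a, b) ∈ verts S := mem_verts.2 ⟨r, by rw [hr]; exact hf⟩
  have hyf : pt (a, b) ∈ EF f := by rw [← hr]; exact pt_EF _ _
  have e1 : |(pt (a, b)).re - w.re| ≤ 1 := by
    simp only [pt]; rw [abs_le]; constructor <;> linarith
  have e2 : |(pt (a, b)).im - w.im| ≤ 1 := by
    simp only [pt]; rw [abs_le]; constructor <;> linarith
  have ho : Co (2 * a - 1) (2 * b - 1) (pt (a, b)) := by
    simp only [Co, ps, pt]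
    push_cast
    refine ⟨⟨?_, ?_⟩, ?_, ?_⟩ <;> linarith
  exact nn_one (a := .V (a, b)) hv rfl e1 e2 (cell_seg hp hS hk hA hδ hM hw
    (hBc hw hc ho fun h h' => by omega) hc ho hf hwf hyf)

theorem nn_h1 (hδ : 0 < δ) (hM : M ≤ len p k A) (hw : w ∈ sD1 p k S A δ M)
    {f : ℤ × ℤ} (hf : f ∈ S) (hwf : w ∈ EF f) {a b : ℤ}
    (hc : Cc (2 * a) (2 * b - 1) w) (m1 : 2 * (a : ℝ) ≤ 2 * w.re - 1 / 2) (m2 : 2 * w.re - 1 / 2 < 2 * a + 1)
    (l1 : 2 * (b : ℝ) - 1 ≤ 2 * w.im - 1 / 2) (l2 : 2 * w.im - 1 / 2 < 2 * b - 1 + 1) :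
    ∃ a, Good S a ∧ JoinedIn (sD1 p k S A δ M ∩ closedBall w 2) w (ps a) := by
  by_cases hg : (a, b) = fc (cs p)
  swap
  · exact nn_h0 hp hS hk hA hδ hM hw hf hwf hc m1 m2 l1 l2 fun _ y hy _ => hBu hw hc hy hg
  by_cases he : s((a, b), (a + 1, b)) ∈ edges S
  · exact nn_h0 hp hS hk hA hδ hM hw hf hwf hc m1 m2 l1 l2 fun h => absurd he h
  have htop := top_mem hp hS
  have hec := edge_cell hp hS hk hA hδ hM hw
  obtain ⟨x, y, r, hcs⟩ : ∃ x y r, cs p = ((x, y), r) := ⟨_, _, _, rfl⟩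
  rw [hcs] at hg htop hec
  have hB : (∀ t : ℝ, t ≤ 3 / 8 → (b : ℝ) + 5 / 16 < (L ((x, y), r) t t).im) →
      ∃ a, Good S a ∧ JoinedIn (sD1 p k S A δ M ∩ closedBall w 2) w (ps a) := by
    intro hh
    refine nn_h0 hp hS hk hA hδ hM hw hf hwf hc m1 m2 l1 l2 fun _ y' hy hy1 u hu hb => ?_
    obtain ⟨t, t1, t2, rfl⟩ := bt_L hb
    obtain ⟨s, s0, s1, e1, e2⟩ := seg_coord hu
    have h := hh t t2
    rw [hcs] at e2
    rw [e2] at h
    nlinarith
  revert r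
  refine forall4 ?_ ?_ ?_ ?_ <;> intro hec htop hg hcs hB
  · rw [fc_0, Prod.mk.injEq] at hg
    simp only at hg
    obtain ⟨rfl, rfl⟩ := hg
    refine hec (by rw [dir0]; simpa using he) hf hwf (X := w.im - b) (Y := w.re - a) ?_ ?_ ?_ ?_ ?_
    · rw [L_0]
      apply Complex.ext <;> simp
    all_goals linarith
  · exfalso
    rw [fc_1, Prod.mk.injEq] at hg
    simp only at hg
    obtain ⟨rfl, rfl⟩ := hg
    apply he
    rw [show s((x - 1, b), (x - 1 + 1, b)) = s((x - 1, b), (x - 1, b) + dir 0) by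
      rw [dir0]; simp, mem_edges]
    right
    rw [show (0 : Fin 4) - 1 = 3 from rfl, face3]
    rw [fl_1, sub_zero] at htop
    exact htop
  · rw [fc_2, Prod.mk.injEq] at hg
    simp only at hg
    obtain ⟨rfl, rfl⟩ := hg
    refine hB fun t ht => ?_
    rw [L_2]
    push_cast
    linarith
  · rw [fc_3, Prod.mk.injEq] at hg
    simp only at hg
    obtain ⟨rfl, rfl⟩ := hg
    refine hB fun t ht => ?_
    rw [L_3]
    push_cast
    linarith

theorem nn_v1 (hδ : 0 < δ) (hM : M ≤ len p k A) (hw : w ∈ sD1 p k S A δ M)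
    {f : ℤ × ℤ} (hf : f ∈ S) (hwf : w ∈ EF f) {a b : ℤ}
    (hc : Cc (2 * a - 1) (2 * b) w) (m1 : 2 * (a : ℝ) - 1 ≤ 2 * w.re - 1 / 2) (m2 : 2 * w.re - 1 / 2 < 2 * a - 1 + 1)
    (l1 : 2 * (b : ℝ) ≤ 2 * w.im - 1 / 2) (l2 : 2 * w.im - 1 / 2 < 2 * b + 1) :
    ∃ a, Good S a ∧ JoinedIn (sD1 p k S A δ M ∩ closedBall w 2) w (ps a) := by
  by_cases hg : (a, b) = fc (cs p)
  swap
  · exact nn_v0 hp hS hk hA hδ hM hw hf hwf hc m1 m2 l1 l2 fun _ y hy _ => hBr hw hc hy hg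
  by_cases he : s((a, b), (a, b + 1)) ∈ edges S
  · exact nn_v0 hp hS hk hA hδ hM hw hf hwf hc m1 m2 l1 l2 fun h => absurd he h
  have htop := top_mem hp hS
  have hec := edge_cell hp hS hk hA hδ hM hw
  obtain ⟨x, y, r, hcs⟩ : ∃ x y r, cs p = ((x, y), r) := ⟨_, _, _, rfl⟩
  rw [hcs] at hg htop hec
  have hB : (∀ t : ℝ, t ≤ 3 / 8 → (a : ℝ) + 5 / 16 < (L ((x, y), r) t t).re) →
      ∃ a, Good S a ∧ JoinedIn (sD1 p k S A δ M ∩ closedBall w 2) w (ps a) := by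
    intro hh
    refine nn_v0 hp hS hk hA hδ hM hw hf hwf hc m1 m2 l1 l2 fun _ y' hy hy1 u hu hb => ?_
    obtain ⟨t, t1, t2, rfl⟩ := bt_L hb
    obtain ⟨s, s0, s1, e1, e2⟩ := seg_coord hu
    have h := hh t t2
    rw [hcs] at e1
    rw [e1] at h
    nlinarith
  revert r
  refine forall4 ?_ ?_ ?_ ?_ <;> intro hec htop hg hcs hB
  · exfalso
    rw [fc_0, Prod.mk.injEq] at hg
    simp only at hg
    obtain ⟨rfl, rfl⟩ := hg
    apply he
    rw [show s((a, b), (a, b + 1)) = s((a, b), (a, b) + dir 1) by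
      rw [dir1]; simp, mem_edges]
    left
    rw [face1]
    rw [fl_0, add_zero] at htop
    exact htop
  · rw [fc_1, Prod.mk.injEq] at hg
    simp only at hg
    obtain ⟨rfl, rfl⟩ := hg
    refine hB fun t ht => ?_
    rw [L_1]
    push_cast
    linarith
  · rw [fc_2, Prod.mk.injEq] at hg
    simp only at hg
    obtain ⟨rfl, rfl⟩ := hg
    refine hB fun t ht => ?_
    rw [L_2]
    push_cast
    linarith
  · rw [fc_3, Prod.mk.injEq] at hg
    simp only at hg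
    obtain ⟨rfl, rfl⟩ := hg
    push_cast at *
    refine hec ?_ hf hwf (X := w.re - a) (Y := y - w.im) ?_ ?_ ?_ ?_ ?_
    · rw [Sym2.eq_swap, dir3]
      simpa [sub_eq_add_neg] using he
    · rw [L_3]
      apply Complex.ext <;> simp
    all_goals linarith

/-- Every point of the slit domain is joined to a node next to it. -/
theorem near_node02 (hδ : 0 < δ) (hM : M ≤ len p k A) {w : ℂ} (hw : w ∈ sD1 p k S A δ M) :
    ∃ a, Good S a ∧ JoinedIn (sD1 p k S A δ M ∩ closedBall w 2) w (ps a) := by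
  obtain ⟨⟨f, hf, f1, f2, f3, f4⟩, -⟩ := id hw
  have hwf : w ∈ EF f := ⟨⟨f1, f2⟩, f3, f4⟩
  obtain ⟨m, hm⟩ : ∃ m : ℤ, m = ⌊2 * w.re - 1 / 2⌋ := ⟨_, rfl⟩
  obtain ⟨l, hl⟩ : ∃ l : ℤ, l = ⌊2 * w.im - 1 / 2⌋ := ⟨_, rfl⟩
  have m1 : (m : ℝ) ≤ 2 * w.re - 1 / 2 := by rw [hm]; exact Int.floor_le _
  have m2 : 2 * w.re - 1 / 2 < m + 1 := by rw [hm]; exact Int.lt_floor_add_one _
  have l1 : (l : ℝ) ≤ 2 * w.im - 1 / 2 := by rw [hl]; exact Int.floor_le _
  have l2 : 2 * w.im - 1 / 2 < l + 1 := by rw [hl]; exact Int.lt_floor_add_one _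
  clear hm hl
  have hc : Cc m l w := ⟨⟨m1, m2.le⟩, l1, l2.le⟩
  obtain ⟨a, ha | ha⟩ : ∃ a : ℤ, m = 2 * a ∨ m = 2 * a - 1 := ⟨(m + 1) / 2, by omega⟩ <;>
  obtain ⟨b, hb | hb⟩ : ∃ b : ℤ, l = 2 * b ∨ l = 2 * b - 1 := ⟨(l + 1) / 2, by omega⟩ <;>
    subst ha <;> subst hb <;> push_cast at m1 m2 l1 l2
  · by_cases hg : (a, b) = fc (cs p)
    · obtain ⟨X, Y, hX⟩ := L_ex (cs p) w
      have hc' : Cc (2 * (fc (cs p)).1) (2 * (fc (cs p)).2) (L (cs p) X Y) := by
        rw [← hg, ← hX]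
        exact hc
      rw [Cc_L] at hc'
      exact face_cell hp hS hk hA hδ hM hw hf hwf hX hc'.1.1 hc'.1.2 hc'.2.1 hc'.2.2
    · exact nn_f0 hp hS hk hA hδ hM hw hf hwf hc m1 m2 l1 l2 hg
  · exact nn_h1 hp hS hk hA hδ hM hw hf hwf hc m1 m2 l1 l2
  · exact nn_v1 hp hS hk hA hδ hM hw hf hwf hc m1 m2 l1 l2
  · exact nn_x0 hp hS hk hA hδ hM hw hf hwf hc m1 m2 l1 l2

/-- **Every point of the slit domain is joined to a node next to it**, also near the start. -/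
theorem near_node0 (hδ : 0 < δ) (hM : M ≤ len p k A) {w : ℂ} (hw : w ∈ sD1 p k S A δ M) :
    ∃ a, Good S a ∧ a ≠ .O (cs p) ∧ JoinedIn (sD1 p k S A δ M ∩ closedBall w 8) w (ps a) := by
  obtain ⟨a, h1, h2⟩ := near_node02 hp hS hk hA hδ hM hw
  refine ⟨a, h1, ?_, h2.mono (inter_subset_inter_right _ (closedBall_subset_closedBall
    (by norm_num)))⟩
  rintro rfl
  have h := h2.target_mem.1.2
  refine h ?_
  show cpt (5 / 16) (cs p) ∈ _
  rw [cpt_L]
  exact L_zM (by norm_num) (by norm_num)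

end

end Vale.Agent.P167.H264.NN
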