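import Vale.Agent.P167.QT.OnE

/-!
# P167, general `q`, [ROT4]: rotation of the lattice by a right angle

The lattice, the medial lattice, the random-cluster weights, the interface, the approximations and the
conformal maps are invariant under the rotation by a right angle, which changes `Stair d` into
`Stair (d + 1)`. Therefore the curve theorem for the class `Stair d` gives the curve theorem for the
union `QT.StairU` of the four classes (`curveLimitOn_stairU`).
-/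

set_option autoImplicit false

namespace Vale.Agent.P167.H264.Rot

open MeasureTheory Filter Topology Set
open Vale.Agent.P167.E6
open Vale.Agent.P153.R2.Final (dom circ toC IsUniformizer)
open Vale.Agent.P167.QE (Wt meanW wq Stair CurveLimitOn Cls)

/-! ### The rotation of the lattice -/

/-- The rotation of the vertices. -/
def R : (ℤ × ℤ) ≃ (ℤ × ℤ) where
  toFun v := (-v.2, v.1)
  invFun v := (v.2, -v.1)
  left_inv v := by simp
  right_inv v := by simp

/-- The rotation of the faces. -/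
def Rf : (ℤ × ℤ) ≃ (ℤ × ℤ) where
  toFun f := (-f.2 - 1, f.1)
  invFun f := (f.2, -f.1 - 1)
  left_inv f := by ext <;> simp
  right_inv f := by ext <;> simp

theorem R_apply (v : ℤ × ℤ) : R v = (-v.2, v.1) := rfl

theorem Rf_apply (v : ℤ × ℤ) : Rf v = (-v.2 - 1, v.1) := rfl

/-- The rotation of the edges. -/
def RE : Sym2 (ℤ × ℤ) ≃ Sym2 (ℤ × ℤ) where
  toFun := Sym2.map R
  invFun := Sym2.map R.symm
  left_inv e := by
    induction e with
    | _ a b => simp
  right_inv e := by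
    induction e with
    | _ a b => simp

theorem RE_mk (a b : ℤ × ℤ) : RE s(a, b) = s(R a, R b) := rfl

theorem R_add (v w : ℤ × ℤ) : R (v + w) = R v + R w := by
  ext
  · simp only [R_apply, Prod.snd_add, Prod.fst_add]
    ring
  · rfl

theorem R_dir (r : Fin 4) : R (dir r) = dir (r + 1) := by
  fin_cases r <;> simp [dir, R_apply]

theorem R_add_dir (v : ℤ × ℤ) (r : Fin 4) : R (v + dir r) = R v + dir (r + 1) := by
  rw [R_add, R_dir]

theorem face_R (v : ℤ × ℤ) (r : Fin 4) : face (R v) (r + 1) = Rf (face v r) := by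
  fin_cases r <;> ext <;> simp [face, R_apply, Rf_apply] <;> ring

theorem mem_Rf {S : Finset (ℤ × ℤ)} {f : ℤ × ℤ} : Rf f ∈ S.image Rf ↔ f ∈ S := by
  rw [Finset.mem_image]
  constructor
  · rintro ⟨g, hg, h⟩
    rwa [← Rf.injective h]
  · exact fun h => ⟨f, h, rfl⟩

theorem edges_R (S : Finset (ℤ × ℤ)) : edges (S.image Rf) = (edges S).image RE := by
  unfold edges
  rw [Finset.image_biUnion, Finset.biUnion_image]
  refine Finset.biUnion_congr rfl fun f _ => ?_
  ext e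
  simp only [Finset.mem_insert, Finset.mem_singleton, Finset.image_insert, Finset.image_singleton,
    RE_mk]
  have h0 : R f = Rf f + (1, 0) := by ext <;> simp [R_apply, Rf_apply]
  have h1 : R (f + (1, 0)) = Rf f + (1, 1) := by ext <;> simp [R_apply, Rf_apply]
  have h2 : R (f + (0, 1)) = Rf f := by ext <;> simp [R_apply, Rf_apply]; ring
  have h3 : R (f + (1, 1)) = Rf f + (0, 1) := by ext <;> simp [R_apply, Rf_apply]; ring
  rw [h0, h1, h2, h3, Sym2.eq_swap (a := Rf f + (1, 0)) (b := Rf f),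
    Sym2.eq_swap (a := Rf f + (1, 1)) (b := Rf f + (0, 1))]
  tauto

theorem verts_R (S : Finset (ℤ × ℤ)) : Final.verts (S.image Rf) = (Final.verts S).image R := by
  unfold Final.verts
  rw [Finset.image_biUnion, Finset.biUnion_image]
  refine Finset.biUnion_congr rfl fun f _ => ?_
  ext e
  simp only [Finset.mem_insert, Finset.mem_singleton, Finset.image_insert, Finset.image_singleton]
  have h0 : R f = Rf f + (1, 0) := by ext <;> simp [R_apply, Rf_apply]
  have h1 : R (f + (1, 0)) = Rf f + (1, 1) := by ext <;> simp [R_apply, Rf_apply]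
  have h2 : R (f + (0, 1)) = Rf f := by ext <;> simp [R_apply, Rf_apply]; ring
  have h3 : R (f + (1, 1)) = Rf f + (0, 1) := by ext <;> simp [R_apply, Rf_apply]; ring
  rw [h0, h1, h2, h3]
  tauto

theorem isPolygon_R {n : ℕ} {p : ZMod n → ℤ × ℤ} (h : IsPolygon p) :
    IsPolygon (fun i => R (p i)) := by
  refine ⟨h.1, R.injective.comp h.2.1, fun i => ?_⟩
  obtain ⟨r, hr⟩ := h.2.2 i
  exact ⟨r + 1, by simp only [hr, R_add_dir]⟩

theorem encloses_R {n : ℕ} {p : ZMod n → ℤ × ℤ} {S : Finset (ℤ × ℤ)} (h : Encloses p S) :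
    Encloses (fun i => R (p i)) (S.image Rf) := by
  intro v r
  obtain ⟨u, rfl⟩ := R.surjective v
  obtain ⟨s, rfl⟩ : ∃ s, r = s + 1 := ⟨r - 1, (sub_add_cancel r 1).symm⟩
  have h1 := h u s
  rw [show s + 1 - 1 = s - 1 + 1 by rw [add_sub_cancel_right, sub_add_cancel], face_R, face_R, mem_Rf, mem_Rf, ← h1]
  refine exists_congr fun i => ?_
  rw [← R_add_dir, R.injective.eq_iff, R.injective.eq_iff]

theorem mem_RE {A : Finset (Sym2 (ℤ × ℤ))} {e : Sym2 (ℤ × ℤ)} : RE e ∈ A.image RE ↔ e ∈ A := by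
  rw [Finset.mem_image]
  constructor
  · rintro ⟨g, hg, h⟩
    rwa [← RE.injective h]
  · exact fun h => ⟨e, h, rfl⟩

theorem wiredOpen_R {n : ℕ} (p : ZMod n → ℤ × ℤ) (k : ℕ) (A : Finset (Sym2 (ℤ × ℤ)))
    (e : Sym2 (ℤ × ℤ)) :
    RE e ∈ wiredOpen (fun i => R (p i)) k (A.image RE) ↔ e ∈ wiredOpen p k A := by
  change (RE e ∈ A.image RE ∨ ∃ i : ℕ, k ≤ i ∧ i + 1 < n ∧ RE e = s(R (p i), R (p (i + 1)))) ↔
    (e ∈ A ∨ ∃ i : ℕ, k ≤ i ∧ i + 1 < n ∧ e = s(p i, p (i + 1)))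
  rw [mem_RE]
  refine or_congr Iff.rfl (exists_congr fun i => ?_)
  rw [← RE_mk, RE.injective.eq_iff]

/-- The rotation of the medial lattice. -/
def RM (c : Medial) : Medial := (R c.1, c.2 + 1)

theorem ahead_RM (c : Medial) : ahead (RM c) = RE (ahead c) := by
  change s(R c.1, R c.1 + dir (c.2 + 1 + 1)) = s(R c.1, R (c.1 + dir (c.2 + 1)))
  rw [R_add_dir]

theorem next_RM {n : ℕ} (p : ZMod n → ℤ × ℤ) (k : ℕ) (A : Finset (Sym2 (ℤ × ℤ))) (c : Medial) :
    next (wiredOpen (fun i => R (p i)) k (A.image RE)) (RM c) = RM (next (wiredOpen p k A) c) := by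
  unfold next
  rw [ahead_RM]
  by_cases h : ahead c ∈ wiredOpen p k A
  · rw [if_pos h, if_pos ((wiredOpen_R p k A _).2 h)]
    change (R c.1 + dir (c.2 + 1 + 1), c.2 + 1 - 1) = (R (c.1 + dir (c.2 + 1)), c.2 - 1 + 1)
    rw [R_add_dir, sub_add_cancel, add_sub_cancel_right]
  · rw [if_neg h, if_neg fun h' => h ((wiredOpen_R p k A _).1 h')]
    rfl

theorem pt_R (v : ℤ × ℤ) : pt (R v) = Complex.I * pt v := by
  apply Complex.ext <;> simp [pt, R_apply]

theorem mid_RM (δ : ℝ) (c : Medial) : mid δ (RM c) = Complex.I * mid δ c := by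
  change (δ : ℂ) * (pt (R c.1) + pt (R c.1 + dir (c.2 + 1 + 1))) / 2 =
    Complex.I * ((δ : ℂ) * (pt c.1 + pt (c.1 + dir (c.2 + 1))) / 2)
  rw [← R_add_dir, pt_R, pt_R]
  ring

theorem poly_I (x : ℕ → ℂ) (m : ℕ) (t : ℝ) :
    poly (fun j => Complex.I * x j) m t = Complex.I * poly x m t := by
  unfold poly
  ring

/-- The rotation of a curve. -/
noncomputable def rotC (γ : C(unitInterval, ℂ)) : C(unitInterval, ℂ) :=
  ⟨fun t => Complex.I * γ t, by fun_prop⟩

theorem rotC_apply (γ : C(unitInterval, ℂ)) (t : unitInterval) : rotC γ t = Complex.I * γ t := rfl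

theorem isInterface_R {n : ℕ} {p : ZMod n → ℤ × ℤ} {k : ℕ} {δ : ℝ} {A : Finset (Sym2 (ℤ × ℤ))}
    {γ : C(unitInterval, ℂ)} (h : IsInterface p k δ A γ) :
    IsInterface (fun i => R (p i)) k δ (A.image RE) (rotC γ) := by
  obtain ⟨m, c, h0, h1, h2, h3, h4, h5, h6, h7⟩ := h
  refine ⟨m, fun j => RM (c j), h0, ?_, ?_, ?_, ?_, ?_, ?_, ?_⟩
  · change R (c 0).1 = R (p (-1))
    rw [h1]
  · change R (p (-1)) + dir ((c 0).2 + 1 + 1) = R (p 0)
    rw [← R_add_dir, h2]
  · intro j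
    change RM (c (j + 1)) = _
    rw [h3, next_RM]
  · intro j hj hc
    refine h4 j hj ⟨R.injective hc.1, R.injective ?_⟩
    rw [R_add_dir]
    exact hc.2
  · change R (c (m + 1)).1 = R (p k)
    rw [h5]
  · change R (p k) + dir ((c (m + 1)).2 + 1) = R (p ((k : ZMod n) - 1))
    rw [← R_add_dir, h6]
  · intro t
    rw [rotC_apply, h7, ← poly_I]
    simp only [mid_RM]

/-! ### The weights -/

theorem clusters_R {n : ℕ} (p : ZMod n → ℤ × ℤ) (k : ℕ) (S : Finset (ℤ × ℤ))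
    (A : Finset (Sym2 (ℤ × ℤ))) :
    Final.clusters (fun i => R (p i)) k (S.image Rf) (A.image RE) = Final.clusters p k S A := by
  unfold Final.clusters
  have hv : ∀ v : ℤ × ℤ, v ∈ (Final.verts S : Set (ℤ × ℤ)) ↔
      R v ∈ (Final.verts (S.image Rf) : Set (ℤ × ℤ)) := by
    intro v
    rw [verts_R, Finset.mem_coe, Finset.mem_coe, Finset.mem_image]
    constructor
    · exact fun h => ⟨v, h, rfl⟩
    · rintro ⟨w, hw, h⟩
      rwa [← R.injective h]
  let e : (Final.verts S : Set (ℤ × ℤ)) ≃ (Final.verts (S.image Rf) : Set (ℤ × ℤ)) :=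
    R.subtypeEquiv hv
  let φ : ((SimpleGraph.fromEdgeSet (Final.wiredOpen p k A)).induce
      (Final.verts S : Set (ℤ × ℤ))) ≃g
      ((SimpleGraph.fromEdgeSet (Final.wiredOpen (fun i => R (p i)) k (A.image RE))).induce
      (Final.verts (S.image Rf) : Set (ℤ × ℤ))) :=
    { toEquiv := e
      map_rel_iff' := by
        intro a b
        change (SimpleGraph.fromEdgeSet (Final.wiredOpen (fun i => R (p i)) k
          (A.image RE))).Adj (R a.1) (R b.1) ↔
          (SimpleGraph.fromEdgeSet (Final.wiredOpen p k A)).Adj a.1 b.1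
        rw [SimpleGraph.fromEdgeSet_adj, SimpleGraph.fromEdgeSet_adj, ← RE_mk]
        exact and_congr (wiredOpen_R p k A _) R.injective.ne_iff }
  exact (Nat.card_congr φ.connectedComponentEquiv).symm

theorem weight_R (q : ℝ) {n : ℕ} (p : ZMod n → ℤ × ℤ) (k : ℕ) (S : Finset (ℤ × ℤ))
    (A : Finset (Sym2 (ℤ × ℤ))) :
    wq q n (fun i => R (p i)) k (S.image Rf) (A.image RE) = wq q n p k S A := by
  unfold wq Final.weight
  have h1 : (Final.edges (S.image Rf)).card = (Final.edges S).card := by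
    have h := congrArg Finset.card (edges_R S)
    rw [Finset.card_image_of_injective _ RE.injective] at h
    exact h
  rw [h1, clusters_R, Finset.card_image_of_injective _ RE.injective]

theorem sum_R (S : Finset (ℤ × ℤ)) (f : Finset (Sym2 (ℤ × ℤ)) → ℝ) :
    ∑ A ∈ (edges (S.image Rf)).powerset, f A = ∑ A ∈ (edges S).powerset, f (A.image RE) := by
  rw [edges_R]
  refine (Finset.sum_bij (fun A _ => A.image RE) ?_ ?_ ?_ ?_).symm
  · intro A hA
    rw [Finset.mem_powerset] at hA ⊢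
    exact Finset.image_subset_image hA
  · intro A _ B _ h
    exact Finset.image_injective RE.injective h
  · intro B hB
    rw [Finset.mem_powerset, Finset.subset_image_iff] at hB
    obtain ⟨A, hA, rfl⟩ := hB
    exact ⟨A, Finset.mem_powerset.2 hA, rfl⟩
  · exact fun A _ => rfl

theorem meanW_R (q : ℝ) {n : ℕ} (p : ZMod n → ℤ × ℤ) (k : ℕ) (S : Finset (ℤ × ℤ))
    (F F' : Finset (Sym2 (ℤ × ℤ)) → ℝ) (h : ∀ A ⊆ edges S, F' (A.image RE) = F A) :
    meanW (S.image Rf) (wq q n (fun i => R (p i)) k (S.image Rf)) F' =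
      meanW S (wq q n p k S) F := by
  unfold meanW
  rw [sum_R, sum_R]
  simp only [weight_R]
  congr 1
  exact Finset.sum_congr rfl fun A hA => by rw [h A (Finset.mem_powerset.1 hA)]

/-! ### The rotation of the domain -/

/-- The rotation of the plane. -/
def rotH : (ℝ × ℝ) ≃ₜ (ℝ × ℝ) where
  toFun z := (-z.2, z.1)
  invFun z := (z.2, -z.1)
  left_inv z := by simp
  right_inv z := by simp
  continuous_toFun := by fun_prop
  continuous_invFun := by fun_prop

theorem toC_rotH (z : ℝ × ℝ) : toC (rotH z) = Complex.I * toC z := by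
  apply Complex.ext <;> simp [toC, rotH]

theorem toC_trans (Φ : (ℝ × ℝ) ≃ₜ (ℝ × ℝ)) (z : ℝ × ℝ) :
    toC ((Φ.trans rotH) z) = Complex.I * toC (Φ z) := toC_rotH (Φ z)

theorem isUniformizer_R {Φ : (ℝ × ℝ) ≃ₜ (ℝ × ℝ)} {ψ : ℂ → ℂ} (h : IsUniformizer Φ ψ) :
    IsUniformizer (Φ.trans rotH) (fun z => Complex.I * ψ z) := by
  obtain ⟨h1, h2, h3, h4, h5, h6⟩ := h
  refine ⟨h1.const_mul _, ?_, ?_, continuousOn_const.mul h4, ?_, ?_⟩
  · intro z hz w hw hzw
    exact h2 hz hw (mul_left_cancel₀ Complex.I_ne_zero hzw)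
  · have h7 : toC '' dom (Φ.trans rotH) = (fun z => Complex.I * z) '' (toC '' dom Φ) := by
      unfold dom
      rw [image_image, image_image, image_image]
      exact image_congr fun z _ => toC_trans Φ z
    rw [h7, ← h3, image_image]
  · change Complex.I * ψ 0 = _
    rw [h5, toC_trans]
  · rw [toC_trans]
    exact h6.const_mul _

theorem approx_R {Φ : (ℝ × ℝ) ≃ₜ (ℝ × ℝ)} {δ : ℕ → ℝ} {N k : ℕ → ℕ}
    {p : ∀ n, ZMod (N n) → ℤ × ℤ} {S : ℕ → Finset (ℤ × ℤ)} (h : Approx Φ δ N k p S) :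
    Approx (Φ.trans rotH) δ N k (fun n i => R (p n i)) (fun n => (S n).image Rf) := by
  obtain ⟨h1, h2, h3⟩ := h
  refine ⟨fun n => ?_, h2, fun ε hε => ?_⟩
  · obtain ⟨h4, h5, h6, h7, h8⟩ := h1 n
    exact ⟨h4, h5, h6, isPolygon_R h7, encloses_R h8⟩
  · filter_upwards [h3 ε hε] with n hn
    obtain ⟨s, hs, hs0, hsk, hsN, hd⟩ := hn
    refine ⟨s, hs, hs0, hsk, hsN, fun i hi t ht => ?_⟩
    have h4 := hd i hi t ht
    rw [pt_R, toC_trans, dist_eq_norm]
    rw [dist_eq_norm] at h4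
    rw [show (δ n : ℂ) * (Complex.I * pt (p n i)) - Complex.I * toC (Φ (circ t)) =
      Complex.I * ((δ n : ℂ) * pt (p n i) - toC (Φ (circ t))) by ring, norm_mul, Complex.norm_I,
      one_mul]
    exact h4

theorem stair_R {d : Fin 4} {Φ Φ' : (ℝ × ℝ) ≃ₜ (ℝ × ℝ)} {δ : ℕ → ℝ} {N k : ℕ → ℕ}
    {p : ∀ n, ZMod (N n) → ℤ × ℤ} {S S' : ℕ → Finset (ℤ × ℤ)} (h : Stair d Φ δ N k p S) :
    Stair (d + 1) Φ' δ N k (fun n i => R (p n i)) S' := by
  obtain ⟨r, hr, h⟩ := h
  refine ⟨r, hr, ?_⟩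
  filter_upwards [h] with n hn
  intro m hm
  obtain ⟨h1, h2⟩ := hn m hm
  have h3 : R (if Even m then dir d else dir (d + 1)) =
      if Even m then dir (d + 1) else dir (d + 1 + 1) := by
    split_ifs
    · exact R_dir d
    · exact R_dir (d + 1)
  exact ⟨by rw [h1, R_add, h3], by rw [h2, R_add, h3]⟩

/-! ### Convergence -/

/-- The limit along one approximation is the curve with the uniformizer `ψ`. -/
def Lim (q : ℝ) {Ω : Type} [MeasurableSpace Ω] (P : Measure Ω) (γ : Ω → ℝ → ℂ)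
    (Φ : (ℝ × ℝ) ≃ₜ (ℝ × ℝ)) (ψ : ℂ → ℂ) (δ : ℕ → ℝ) (N k : ℕ → ℕ)
    (p : ∀ n, ZMod (N n) → ℤ × ℤ) (S : ℕ → Finset (ℤ × ℤ)) : Prop :=
  ∀ G : Ω → C(unitInterval, ℂ), (∀ᵐ ω ∂P, G ω 1 = toC (Φ (circ Real.pi)) ∧
      ∀ t : unitInterval, (t : ℝ) < 1 → G ω t = ψ (γ ω (t / (1 - t)))) →
    ∀ c : ℕ → Finset (Sym2 (ℤ × ℤ)) → C(unitInterval, ℂ),
      (∀ n, ∀ A ⊆ edges (S n), IsInterface (p n) (k n) (δ n) A (c n A)) →
      ∀ F : C(unitInterval, ℂ) → ℝ, Continuous F → (∃ M, ∀ x, |F x| ≤ M) →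
        (∀ (x : C(unitInterval, ℂ)) (σ : C(unitInterval, unitInterval)), StrictMono σ →
          Function.Surjective σ → F (x.comp σ) = F x) →
        Tendsto (fun n => meanW (S n) (wq q _ (p n) (k n) (S n)) fun A => F (c n A)) atTop
          (𝓝 (∫ ω, F (G ω) ∂P))

/-- The rotation of a curve in the opposite direction. -/
noncomputable def rotC' (γ : C(unitInterval, ℂ)) : C(unitInterval, ℂ) :=
  ⟨fun t => -Complex.I * γ t, by fun_prop⟩

theorem rotC'_rotC (γ : C(unitInterval, ℂ)) : rotC' (rotC γ) = γ := by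
  ext t
  change -Complex.I * (Complex.I * γ t) = γ t
  rw [← mul_assoc, neg_mul, Complex.I_mul_I, neg_neg, one_mul]

theorem continuous_rotC' : Continuous rotC' := by
  have h : rotC' = fun γ : C(unitInterval, ℂ) =>
      (⟨fun z : ℂ => -Complex.I * z, by fun_prop⟩ : C(ℂ, ℂ)).comp γ := by
    funext γ
    ext t
    rfl
  rw [h]
  exact ContinuousMap.continuous_postcomp _

theorem lim_R {q : ℝ} {Ω : Type} [MeasurableSpace Ω] {P : Measure Ω} {γ : Ω → ℝ → ℂ}
    {Φ : (ℝ × ℝ) ≃ₜ (ℝ × ℝ)} {ψ : ℂ → ℂ} {δ : ℕ → ℝ} {N k : ℕ → ℕ}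
    {p : ∀ n, ZMod (N n) → ℤ × ℤ} {S : ℕ → Finset (ℤ × ℤ)}
    (h : Lim q P γ (Φ.trans rotH) (fun z => Complex.I * ψ z) δ N k (fun n i => R (p n i))
      (fun n => (S n).image Rf)) : Lim q P γ Φ ψ δ N k p S := by
  intro G hG c hc F hF hM hinv
  -- the interfaces of the rotated domains
  have hG' : ∀ᵐ ω ∂P, rotC (G ω) 1 = toC ((Φ.trans rotH) (circ Real.pi)) ∧
      ∀ t : unitInterval, (t : ℝ) < 1 → rotC (G ω) t = Complex.I * ψ (γ ω (t / (1 - t))) := by
    filter_upwards [hG] with ω hω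
    refine ⟨?_, fun t ht => ?_⟩
    · rw [rotC_apply, hω.1, toC_trans]
    · rw [rotC_apply, hω.2 t ht]
  have h1 := h (fun ω => rotC (G ω)) hG' (fun n A => rotC (c n (A.image RE.symm)))
    (fun n A hA => by
      rw [edges_R, Finset.subset_image_iff] at hA
      obtain ⟨B, hB, rfl⟩ := hA
      have h2 : (B.image RE).image RE.symm = B := by
        rw [Finset.image_image]
        simp
      rw [h2]
      exact isInterface_R (hc n B hB)) (fun x => F (rotC' x)) (hF.comp continuous_rotC')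
    (by
      obtain ⟨M, hM⟩ := hM
      exact ⟨M, fun x => hM _⟩)
    (fun x σ hσ hs => by
      have h3 : rotC' (x.comp σ) = (rotC' x).comp σ := by
        ext t
        rfl
      rw [h3, hinv _ σ hσ hs])
  simp only [rotC'_rotC] at h1
  refine h1.congr fun _ => ?_
  exact meanW_R q _ _ _ (fun A => F (c _ A)) _ fun A _ => by
    have h2 : (A.image RE).image RE.symm = A := by
      rw [Finset.image_image]
      simp
    rw [h2]

/-- Convergence in all domains for one class. -/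
def All (q : ℝ) {Ω : Type} [MeasurableSpace Ω] (P : Measure Ω) (γ : Ω → ℝ → ℂ) (d : Fin 4) : Prop :=
  ∀ (Φ : (ℝ × ℝ) ≃ₜ (ℝ × ℝ)) (ψ : ℂ → ℂ), IsUniformizer Φ ψ →
    ∀ (δ : ℕ → ℝ) (N k : ℕ → ℕ) (p : ∀ n, ZMod (N n) → ℤ × ℤ) (S : ℕ → Finset (ℤ × ℤ)),
      Approx Φ δ N k p S → Stair d Φ δ N k p S → Lim q P γ Φ ψ δ N k p S

theorem all_R {q : ℝ} {Ω : Type} [MeasurableSpace Ω] {P : Measure Ω} {γ : Ω → ℝ → ℂ} {d : Fin 4}
    (h : All q P γ (d + 1)) : All q P γ d := fun _ _ hψ _ _ _ _ _ hA hK =>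
  lim_R (h _ _ (isUniformizer_R hψ) _ _ _ _ _ (approx_R hA) (stair_R hK))

theorem all_all {q : ℝ} {Ω : Type} [MeasurableSpace Ω] {P : Measure Ω} {γ : Ω → ℝ → ℂ} {d : Fin 4}
    (h : All q P γ d) (e : Fin 4) : All q P γ e := by
  have h0 : ∀ d e : Fin 4, e = d ∨ e + 1 = d ∨ e + 1 + 1 = d ∨ e + 1 + 1 + 1 = d := by decide
  rcases h0 d e with h1 | h1 | h1 | h1
  · rwa [h1]
  · exact all_R (by rwa [h1])
  · exact all_R (all_R (by rwa [h1]))
  · exact all_R (all_R (all_R (by rwa [h1])))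

/-- **[ROT4]** The curve theorem for one of the four classes `Stair d` gives the curve theorem for
their union. -/
theorem curveLimitOn_stairU {κ q : ℝ} {d : Fin 4} (h : CurveLimitOn (Stair d) κ (wq q)) :
    CurveLimitOn QT.StairU κ (wq q) := by
  obtain ⟨Ω, mΩ, P, hP, γ, hγ, h⟩ := h
  refine ⟨Ω, mΩ, P, hP, γ, hγ, fun Φ => ⟨(h Φ).1, fun ψ hψ => ?_⟩⟩
  have hall : All q P γ d := by
    intro Φ ψ hψ δ N k p S hA hK G hG c hc F hF hM hinv
    obtain ⟨G', hG', -, hconv⟩ := (h Φ).2 ψ hψ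
    have h1 := (hconv δ N k p S hA).2 hK c hc F hF hM hinv
    have h2 : ∀ᵐ ω ∂P, G' ω = G ω := by
      filter_upwards [hG, hG'] with ω h3 h4
      ext t
      rcases eq_or_lt_of_le t.2.2 with ht | ht
      · have ht' : t = 1 := Subtype.ext ht
        rw [ht', h3.1, h4.1]
      · rw [h3.2 t ht, h4.2 t ht]
    have h3 : ∫ ω, F (G' ω) ∂P = ∫ ω, F (G ω) ∂P :=
      integral_congr_ae (h2.mono fun ω hω => by simp only [hω])
    rwa [h3] at h1
  obtain ⟨G, hG1, hG2, hG3⟩ := (h Φ).2 ψ hψ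
  refine ⟨G, hG1, hG2, fun δ N k p S hA => ⟨(hG3 δ N k p S hA).1, ?_⟩⟩
  rintro ⟨e, he⟩ c hc F hF hM hinv
  exact all_all hall e Φ ψ hψ δ N k p S hA he G hG1 c hc F hF hM hinv

end Vale.Agent.P167.H264.Rot
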